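import Vale.Agent.N249.Quad
import Mathlib.Analysis.SpecialFunctions.Pow.Asymptotics

/-!
# N249: consequences for distortions tending to `1`
-/

open scoped BigOperators ENNReal
open Filter Topology

universe u

namespace Vale.Agent.N249

open Vale.Agent.P249Z

variable {p : ℝ≥0∞} [Fact (1 ≤ p)]

theorem lin_lower (hp1 : 1 < p) (hp : p ≠ ∞) (hp2 : p ≠ 2) : ∃ C : ℝ, 0 < C ∧ ∀ n : ℕ, 2 ≤ n →
    ∀ ε : ℝ, 0 < ε → ε ≤ 1 → (n : ℝ) / 4 *
      Real.exp (-(C * ε ^ (1 / min p.toReal 2) * Real.log n ^ 2)) ≤ dimU.{u} p n (1 + ε) := by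
  obtain ⟨C, hC, H⟩ := master.{u} hp1 hp hp2
  refine ⟨4 * C, by positivity, fun n hn ε hε hε1 => ?_⟩
  have h1 : 1 ≤ Nat.log 2 n := Nat.le_log_of_pow_le (by norm_num) hn
  obtain ⟨k, hk⟩ : ∃ k, Nat.log 2 n = k + 1 := ⟨Nat.log 2 n - 1, by omega⟩
  have h2 : 2 ^ (k + 1) ≤ n := hk ▸ Nat.pow_log_le_self 2 (by omega)
  have h3 : n < 2 ^ (k + 1 + 1) := hk ▸ Nat.lt_pow_succ_log_self (by norm_num) n
  refine le_trans ?_ (H n k h2 ε hε hε1)
  have h4 : (n : ℝ) / 4 ≤ 2 ^ k := by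
    have : (n : ℝ) ≤ 2 ^ (k + 1 + 1) := by exact_mod_cast h3.le
    rw [pow_succ, pow_succ] at this
    linarith
  have h5 : (k : ℝ) ≤ 2 * Real.log n := by
    have h6 : (2 : ℝ) ^ (k + 1) ≤ n := by exact_mod_cast h2
    have h7 := Real.log_le_log (by positivity) h6
    rw [Real.log_pow] at h7
    push_cast at h7
    have := Real.log_two_gt_d9
    have : (0 : ℝ) ≤ k := Nat.cast_nonneg k
    nlinarith
  have h8 : (k : ℝ) ^ 2 ≤ (2 * Real.log n) ^ 2 := pow_le_pow_left₀ (Nat.cast_nonneg k) h5 2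
  have h9 := mul_le_mul_of_nonneg_left h8
    (show 0 ≤ C * ε ^ (1 / min p.toReal 2) by positivity)
  exact mul_le_mul h4 (Real.exp_le_exp.2 (by linarith)) (Real.exp_pos _).le (by positivity)

theorem exp_lower (hp1 : 1 < p) (hp : p ≠ ∞) (hp2 : p ≠ 2) : ∃ c : ℝ, 0 < c ∧ ∀ n : ℕ, 2 ≤ n →
    ∀ ε : ℝ, 0 < ε → ε ≤ 1 →
      c * Real.exp (c * min (Real.log n) (ε ^ (-(1 / min p.toReal 2)))) ≤
        dimU.{u} p n (1 + ε) := by
  obtain ⟨C, hC, H⟩ := master.{u} hp1 hp hp2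
  obtain ⟨c, hc, hc1, hc2⟩ : ∃ c : ℝ, 0 < c ∧ c ≤ 1 / 4 ∧ C * c ≤ 1 / 3 :=
    ⟨min (1 / 4) (1 / (3 * C)), by positivity, min_le_left _ _,
      (mul_le_mul_of_nonneg_left (min_le_right _ _) hC.le).trans_eq (by field_simp)⟩
  refine ⟨c / 3, by positivity, fun n hn ε hε hε1 => ?_⟩
  have hnr : (2 : ℝ) ≤ n := by exact_mod_cast hn
  have hl2 := Real.log_two_gt_d9
  have hl3 := Real.log_two_lt_d9
  have hlog : Real.log 2 ≤ Real.log n := Real.log_le_log (by norm_num) hnr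
  have hl : 0 < ε ^ (1 / min p.toReal 2) := Real.rpow_pos_of_pos hε _
  rw [Real.rpow_neg hε.le]
  have H' := fun k hk => H n k hk ε hε hε1
  generalize ε ^ (1 / min p.toReal 2) = l at *
  have hx0 : 0 < min (Real.log n) l⁻¹ := lt_min (by linarith) (inv_pos.2 hl)
  have hx1 := min_le_left (Real.log n) l⁻¹
  have hx2 : l * min (Real.log n) l⁻¹ ≤ 1 :=
    (mul_le_mul_of_nonneg_left (min_le_right _ _) hl.le).trans_eq (mul_inv_cancel₀ hl.ne')
  generalize min (Real.log n) l⁻¹ = x at *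
  have hk1 : (⌊c * x⌋₊ : ℝ) ≤ c * x := Nat.floor_le (by positivity)
  have hk2 : c * x < ⌊c * x⌋₊ + 1 := Nat.lt_floor_add_one _
  generalize ⌊c * x⌋₊ = k at *
  have hk0 : (0 : ℝ) ≤ k := Nat.cast_nonneg k
  have hk3 : (k : ℝ) ≤ 1 / 4 * Real.log n := hk1.trans (by gcongr)
  have h2 : 2 ^ (k + 1) ≤ n := by
    rcases Nat.eq_zero_or_pos k with rfl | hk
    · exact hn
    have hk' : (1 : ℝ) ≤ k := by exact_mod_cast hk
    have : (2 : ℝ) ^ (k + 1) ≤ n := by
      rw [← Real.log_le_log_iff (by positivity) (by positivity), Real.log_pow]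
      push_cast
      nlinarith
    exact_mod_cast this
  refine le_trans ?_ (H' k h2)
  have h3 : C * l * k ≤ 1 / 3 := by
    calc C * l * k ≤ C * l * (c * x) := by gcongr
      _ = C * c * (l * x) := by ring
      _ ≤ 1 / 3 * 1 := by gcongr
      _ = 1 / 3 := by norm_num
  have h4 : (2 : ℝ) ^ k = Real.exp (k * Real.log 2) := by
    rw [Real.exp_nat_mul, Real.exp_log (by norm_num)]
  have h5 : c / 3 ≤ Real.exp (-(1 / 3)) := by
    have := Real.add_one_le_exp (-(1 / 3) : ℝ)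
    linarith
  refine (mul_le_mul_of_nonneg_right h5 (Real.exp_pos _).le).trans ?_
  rw [h4, ← Real.exp_add, ← Real.exp_add, Real.exp_le_exp]
  have h6 := mul_le_mul_of_nonneg_right h3 hk0
  nlinarith

theorem log_top : Tendsto (fun n : ℕ => Real.log n) atTop atTop :=
  Real.tendsto_log_atTop.comp tendsto_natCast_atTop_atTop

theorem log_rpow_zero {a : ℝ} (ha : a < 0) (C : ℝ) :
    Tendsto (fun n : ℕ => C * Real.log n ^ a) atTop (𝓝 0) := by
  have := ((tendsto_rpow_neg_atTop (neg_pos.2 ha)).comp log_top).const_mul C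
  simpa [Function.comp_def] using this

theorem ev_log {a : ℝ} (ha : 0 ≤ a) : ∀ᶠ n : ℕ in atTop, 2 ≤ n ∧ 1 ≤ Real.log n ∧
    0 < Real.log n ^ (-a) ∧ Real.log n ^ (-a) ≤ 1 := by
  filter_upwards [eventually_ge_atTop 2, log_top.eventually_ge_atTop 1] with n h1 h2
  exact ⟨h1, h2, Real.rpow_pos_of_pos (by linarith) _,
    Real.rpow_le_one_of_one_le_of_nonpos h2 (by linarith)⟩

theorem thr_sub (hp1 : 1 < p) (hp : p ≠ ∞) (hp2 : p ≠ 2) {a : ℝ} (ha : 0 ≤ a)
    (ha1 : a < 1 - |1 - 2 / p.toReal|) :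
    Tendsto (fun n : ℕ => Real.log (dimU.{u} p n (1 + Real.log n ^ (-a))) / Real.log n) atTop
      (𝓝 0) := by
  obtain ⟨C, hC, H⟩ := dimU_le_exp.{u} hp1 hp hp2
  refine squeeze_zero' ?_ ?_ (log_rpow_zero (a := |1 - 2 / p.toReal| + a - 1) (by linarith) C)
  · filter_upwards [ev_log ha] with n ⟨_, h2, _, _⟩
    exact div_nonneg (Real.log_natCast_nonneg _) (by linarith)
  · filter_upwards [ev_log ha] with n ⟨h1, h2, h3, h4⟩
    have h5 : (1 : ℝ) ≤ dimU.{u} p n (1 + Real.log n ^ (-a)) := by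
      exact_mod_cast one_le_dimU.{u} hp h1 (by linarith)
    have h6 := Real.log_le_log (by linarith) (H n h1 _ h3 h4)
    have h0 : 0 < Real.log n := by linarith
    rw [Real.log_exp] at h6
    rw [div_le_iff₀ h0]
    refine h6.trans_eq ?_
    rw [Real.rpow_sub_one h0.ne', Real.rpow_add h0, Real.rpow_neg h0.le]
    field_simp

theorem thr_poly (hp1 : 1 < p) (hp : p ≠ ∞) (hp2 : p ≠ 2) : ∃ c : ℝ, 0 < c ∧ ∀ a : ℝ,
    min p.toReal 2 ≤ a → ∀ᶠ n : ℕ in atTop,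
      (n : ℝ) ^ c ≤ dimU.{u} p n (1 + Real.log n ^ (-a)) := by
  obtain ⟨c, hc, H⟩ := exp_lower.{u} hp1 hp hp2
  have hm : 1 ≤ min p.toReal 2 := le_min (one_lt_toReal hp1 hp).le (by norm_num)
  refine ⟨c / 2, by positivity, fun a ha => ?_⟩
  filter_upwards [ev_log (a := a) (by linarith),
    log_top.eventually_ge_atTop (-Real.log c / (c / 2))] with n ⟨h1, h2, h3, h4⟩ h5
  refine le_trans ?_ (H n h1 _ h3 h4)
  have h0 : 0 < Real.log n := by linarith
  have h6 : Real.log n ≤ (Real.log n ^ (-a)) ^ (-(1 / min p.toReal 2)) := by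
    rw [← Real.rpow_mul h0.le]
    conv_lhs => rw [← Real.rpow_one (Real.log n)]
    refine Real.rpow_le_rpow_of_exponent_le h2 ?_
    rw [neg_mul_neg, mul_one_div, le_div_iff₀ (by linarith)]
    linarith
  rw [min_eq_left h6, Real.rpow_def_of_pos (by positivity)]
  conv_rhs => rw [← Real.exp_log hc, ← Real.exp_add, Real.exp_log hc]
  rw [div_le_iff₀ (by positivity)] at h5
  exact Real.exp_le_exp.2 (by linarith)

theorem expo_eq {L a m : ℝ} (hL : 0 < L) (C : ℝ) (j : ℕ) :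
    C * (L ^ (-a)) ^ (1 / m) * L ^ 2 = C * L ^ (2 - j - a / m) * L ^ j := by
  rw [← Real.rpow_mul hL.le, mul_assoc, mul_assoc, ← Real.rpow_natCast, ← Real.rpow_natCast,
    ← Real.rpow_add hL, ← Real.rpow_add hL]
  congr 2
  push_cast
  ring

theorem thr_near (hp1 : 1 < p) (hp : p ≠ ∞) (hp2 : p ≠ 2) {a η : ℝ} (ha : min p.toReal 2 < a)
    (hη : 0 < η) :
    ∀ᶠ n : ℕ in atTop, (n : ℝ) ^ (1 - η) ≤ dimU.{u} p n (1 + Real.log n ^ (-a)) := by
  obtain ⟨C, hC, H⟩ := lin_lower.{u} hp1 hp hp2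
  have hm : 1 ≤ min p.toReal 2 := le_min (one_lt_toReal hp1 hp).le (by norm_num)
  have h7 : 2 - (1 : ℕ) - a / min p.toReal 2 < 0 := by
    have : 1 < a / min p.toReal 2 := by
      rw [lt_div_iff₀ (by linarith)]
      linarith
    push_cast
    linarith
  filter_upwards [ev_log (a := a) (by linarith),
    (log_rpow_zero h7 C).eventually (gt_mem_nhds (half_pos hη)),
    log_top.eventually_ge_atTop (Real.log 4 / (η / 2))] with n ⟨h1, h2, h3, h4⟩ h5 h6
  refine le_trans ?_ (H n h1 _ h3 h4)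
  have h0 : 0 < Real.log n := by linarith
  have hn : (0 : ℝ) < n := by positivity
  rw [expo_eq h0 C 1, Real.rpow_def_of_pos hn, ← Real.exp_log (show (0 : ℝ) < n / 4 by positivity),
    ← Real.exp_add, Real.log_div hn.ne' (by norm_num), Real.exp_le_exp, pow_one]
  rw [div_le_iff₀ (by positivity)] at h6
  have := mul_le_mul_of_nonneg_right h5.le h0.le
  linarith

theorem thr_lin (hp1 : 1 < p) (hp : p ≠ ∞) (hp2 : p ≠ 2) {a : ℝ} (ha : 2 * min p.toReal 2 < a) :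
    ∀ᶠ n : ℕ in atTop, (n : ℝ) / 5 ≤ dimU.{u} p n (1 + Real.log n ^ (-a)) := by
  obtain ⟨C, hC, H⟩ := lin_lower.{u} hp1 hp hp2
  have hm : 1 ≤ min p.toReal 2 := le_min (one_lt_toReal hp1 hp).le (by norm_num)
  have h7 : 2 - (0 : ℕ) - a / min p.toReal 2 < 0 := by
    have : 2 < a / min p.toReal 2 := by
      rw [lt_div_iff₀ (by linarith)]
      linarith
    push_cast
    linarith
  filter_upwards [ev_log (a := a) (by linarith),
    (log_rpow_zero h7 C).eventually (gt_mem_nhds (show (0 : ℝ) < 1 / 5 by norm_num))]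
    with n ⟨h1, h2, h3, h4⟩ h5
  refine le_trans ?_ (H n h1 _ h3 h4)
  have h0 : 0 < Real.log n := by linarith
  have hn : (0 : ℝ) < n := by positivity
  rw [expo_eq h0 C 0, pow_zero, mul_one]
  have := Real.add_one_le_exp (-(C * Real.log n ^ (2 - (0 : ℕ) - a / min p.toReal 2)))
  nlinarith

end Vale.Agent.N249
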