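import Vale.Agent.P249Z.Clark
import Mathlib.Analysis.MeanInequalities
import Mathlib.Analysis.SpecialFunctions.Pow.Real
import Mathlib.Analysis.SpecialFunctions.Sqrt

/-!
# N249: quantitative scalar inequalities of Clarkson type
-/

open scoped BigOperators

namespace Vale.Agent.N249

open Vale.Agent.P249Z

theorem rpow_split {x s : ℝ} (hx : 0 ≤ x) (hs : 0 < s) : x ^ s = x ^ (s - 1) * x := by
  rcases hx.eq_or_lt with rfl | hx
  · simp [Real.zero_rpow hs.ne']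
  · rw [Real.rpow_sub_one hx.ne']
    field_simp

/-- tangent line inequality for a convex power -/
theorem pow_sub_le {x y s : ℝ} (hy : 0 ≤ y) (hx : 0 ≤ x) (hs : 1 ≤ s) :
    x ^ s - y ^ s ≤ s * x ^ (s - 1) * (x - y) := by
  rcases hx.eq_or_lt with rfl | hx
  · rcases hs.eq_or_lt with rfl | hs
    · simp
    · rw [Real.zero_rpow (by linarith), Real.zero_rpow (by linarith)]
      have := Real.rpow_nonneg hy s
      linarith
  have h1 : -1 ≤ y / x - 1 := by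
    have := div_nonneg hy hx.le
    linarith
  have h2 := one_add_mul_self_le_rpow_one_add h1 hs
  rw [add_sub_cancel, Real.div_rpow hy hx.le, le_div_iff₀ (Real.rpow_pos_of_pos hx s)] at h2
  have h3 : x ^ s = x ^ (s - 1) * x := rpow_split hx.le (by linarith)
  have h4 : (1 + s * (y / x - 1)) * x ^ s = x ^ s - s * x ^ (s - 1) * (x - y) := by
    rw [h3]
    field_simp
    ring
  linarith

theorem pow_lip {x y s B : ℝ} (hx : 0 ≤ x) (hy : 0 ≤ y) (hxB : x ≤ B) (hyB : y ≤ B) (hs : 1 ≤ s) :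
    |x ^ s - y ^ s| ≤ s * B ^ (s - 1) * |x - y| := by
  have key : ∀ a b : ℝ, 0 ≤ a → 0 ≤ b → a ≤ B → a ^ s - b ^ s ≤ s * B ^ (s - 1) * |a - b| := by
    intro a b ha hb haB
    refine (pow_sub_le hb ha hs).trans ?_
    have h1 : a ^ (s - 1) ≤ B ^ (s - 1) := Real.rpow_le_rpow ha haB (by linarith)
    have h2 : 0 ≤ a ^ (s - 1) := Real.rpow_nonneg ha _
    calc s * a ^ (s - 1) * (a - b) ≤ s * a ^ (s - 1) * |a - b| := by
          gcongr
          exact le_abs_self _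
      _ ≤ s * B ^ (s - 1) * |a - b| := by gcongr
  rw [abs_le]
  constructor
  · have := key y x hy hx hyB
    rw [abs_sub_comm] at this
    linarith
  · exact key x y hx hy hxB

/-- strict subadditivity of a concave power -/
theorem sub_add {a b s : ℝ} (hb : 0 ≤ b) (hab : b ≤ a) (hs0 : 0 < s) (hs : s ≤ 1) :
    (a + b) ^ s ≤ a ^ s + s * b ^ s := by
  rcases hb.eq_or_lt with rfl | hb
  · simp [Real.zero_rpow hs0.ne']
  have ha : 0 < a := by linarith
  have h1 : -1 ≤ b / a := by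
    have := div_nonneg hb.le ha.le
    linarith
  have h2 := rpow_one_add_le_one_add_mul_self h1 hs0.le hs
  have e : 1 + b / a = (a + b) / a := by field_simp
  rw [e, Real.div_rpow (by linarith) ha.le, div_le_iff₀ (Real.rpow_pos_of_pos ha s)] at h2
  have h3 : a ^ s = a ^ (s - 1) * a := rpow_split ha.le hs0
  have h4 : b ^ s = b ^ (s - 1) * b := rpow_split hb.le hs0
  have h5 : a ^ (s - 1) ≤ b ^ (s - 1) := Real.rpow_le_rpow_of_nonpos hb hab (by linarith)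
  have h6 : (1 + s * (b / a)) * a ^ s = a ^ s + s * (a ^ (s - 1) * b) := by
    rw [h3]
    field_simp
  have h7 : s * (a ^ (s - 1) * b) ≤ s * b ^ s := by
    rw [h4]
    gcongr
  linarith

/-- strict superadditivity of a convex power -/
theorem super_add {a b s : ℝ} (hb : 0 ≤ b) (hab : b ≤ a) (hs : 1 ≤ s) :
    a ^ s + b ^ s + (s - 1) * (a ^ (s - 1) * b) ≤ (a + b) ^ s := by
  have ha : 0 ≤ a := hb.trans hab
  have h1 := pow_sub_le (x := a) (y := a + b) (by linarith) ha hs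
  have h4 : b ^ s = b ^ (s - 1) * b := rpow_split hb (by linarith)
  have h5 : b ^ (s - 1) ≤ a ^ (s - 1) := Real.rpow_le_rpow hb hab (by linarith)
  have h6 : b ^ s ≤ a ^ (s - 1) * b := by
    rw [h4]
    gcongr
  nlinarith

theorem sq_rpow_half {P t : ℝ} (ht : 0 ≤ t) : (t ^ 2) ^ (P / 2) = t ^ P := by
  rw [← abs_rpow_eq_sq_rpow, abs_of_nonneg ht]

theorem min_abs_sq (u v : ℝ) : min (u ^ 2) (v ^ 2) = (min |u| |v|) ^ 2 := by
  rcases le_total |u| |v| with h | h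
  · rw [min_eq_left h, sq_abs, min_eq_left (sq_le_sq.2 h)]
  · rw [min_eq_right h, sq_abs, min_eq_right (sq_le_sq.2 h)]

/-- Clarkson with a remainder, `P < 2`. -/
theorem clark_lt {P : ℝ} (hP0 : 0 < P) (hP : P < 2) (u v : ℝ) :
    (2 - P) * (min |u| |v|) ^ P ≤ 2 * (|u| ^ P + |v| ^ P) - (|u + v| ^ P + |u - v| ^ P) := by
  have hr : P / 2 < 1 := by linarith
  have hr0 : 0 < P / 2 := by linarith
  obtain ⟨h1, -⟩ := mid_concave hr0 hr (sq_nonneg (u + v)) (sq_nonneg (u - v))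
  have e : ((u + v) ^ 2 + (u - v) ^ 2) / 2 = u ^ 2 + v ^ 2 := by ring
  rw [e] at h1
  rw [← sq_rpow_half (le_min (abs_nonneg _) (abs_nonneg _)), ← min_abs_sq]
  simp only [abs_rpow_eq_sq_rpow]
  rcases le_total (u ^ 2) (v ^ 2) with h | h
  · have := sub_add (sq_nonneg u) h hr0 hr.le
    rw [min_eq_left h]
    rw [add_comm (v ^ 2)] at this
    linarith
  · have := sub_add (sq_nonneg v) h hr0 hr.le
    rw [min_eq_right h]
    linarith

/-- Clarkson with a remainder, `2 < P`. -/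
theorem clark_gt {P : ℝ} (hP : 2 < P) (u v : ℝ) :
    (P - 2) * (min |u| |v|) ^ P ≤ (|u + v| ^ P + |u - v| ^ P) - 2 * (|u| ^ P + |v| ^ P) := by
  have hr : 1 < P / 2 := by linarith
  obtain ⟨h1, -⟩ := mid_convex hr (sq_nonneg (u + v)) (sq_nonneg (u - v))
  have e : ((u + v) ^ 2 + (u - v) ^ 2) / 2 = u ^ 2 + v ^ 2 := by ring
  rw [e] at h1
  rw [← sq_rpow_half (le_min (abs_nonneg _) (abs_nonneg _)), ← min_abs_sq]
  simp only [abs_rpow_eq_sq_rpow]
  have key : ∀ a b : ℝ, 0 ≤ b → b ≤ a →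
      a ^ (P / 2) + b ^ (P / 2) + (P / 2 - 1) * b ^ (P / 2) ≤ (a + b) ^ (P / 2) := by
    intro a b hb hab
    have h2 := super_add hb hab hr.le
    have h4 : b ^ (P / 2) = b ^ (P / 2 - 1) * b := rpow_split hb (by linarith)
    have h5 : b ^ (P / 2 - 1) ≤ a ^ (P / 2 - 1) := Real.rpow_le_rpow hb hab (by linarith)
    have h6 : b ^ (P / 2) ≤ a ^ (P / 2 - 1) * b := by
      rw [h4]
      gcongr
    nlinarith
  rcases le_total (u ^ 2) (v ^ 2) with h | h
  · have := key _ _ (sq_nonneg u) h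
    rw [min_eq_left h]
    rw [add_comm (v ^ 2)] at this
    linarith
  · have := key _ _ (sq_nonneg v) h
    rw [min_eq_right h]
    linarith

theorem mid_le {P : ℝ} (hP : 1 < P) (M h : ℝ) : 2 * |M| ^ P ≤ |M + h| ^ P + |M - h| ^ P := by
  have h1 := (mid_convex hP (abs_nonneg (M + h)) (abs_nonneg (M - h))).1
  have h2 : |M| ≤ (|M + h| + |M - h|) / 2 := by
    have := abs_add_le (M + h) (M - h)
    have e : M + h + (M - h) = 2 * M := by ring
    rw [e, abs_mul, abs_two] at this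
    linarith
  have h3 := Real.rpow_le_rpow (abs_nonneg _) h2 (by linarith : 0 ≤ P)
  linarith

/-- The quadrilateral inequality with a remainder, `1 < P < 2`. -/
theorem quad_lt {P : ℝ} (hP1 : 1 < P) (hP : P < 2) {e₁ e₂ e₃ e₄ : ℝ} (h : e₁ + e₂ = e₃ + e₄) :
    0 ≤ |e₁| ^ P + |e₂| ^ P + |e₃| ^ P + |e₄| ^ P - |e₁ + e₂| ^ P - |e₁ - e₃| ^ P ∧
    (min |e₁| |e₂|) ^ P ≤ (1 + 2 / (2 - P)) *
      (|e₁| ^ P + |e₂| ^ P + |e₃| ^ P + |e₄| ^ P - |e₁ + e₂| ^ P - |e₁ - e₃| ^ P) := by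
  obtain ⟨A, B, D, rfl, rfl, rfl, rfl⟩ : ∃ A B D : ℝ,
      e₁ = A + D ∧ e₄ = A - D ∧ e₃ = B + D ∧ e₂ = B - D :=
    ⟨(e₁ + e₄) / 2, (e₂ + e₃) / 2, (e₁ - e₄) / 2, by ring, by ring, by linarith, by linarith⟩
  have e1 : A + D + (B - D) = A + B := by ring
  have e2 : A + D - (B + D) = A - B := by ring
  rw [e1, e2]
  have h1 := clark_lt (by linarith) hP A B
  have h2 := mid_le hP1 A D
  have h3 := mid_le hP1 B D
  have h4 : 0 ≤ (min |A| |B|) ^ P := Real.rpow_nonneg (le_min (abs_nonneg _) (abs_nonneg _)) _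
  have h5 : 0 < 2 - P := by linarith
  have h6 : 0 ≤ (2 - P) * (min |A| |B|) ^ P := by positivity
  set σ := |A + D| ^ P + |B - D| ^ P + |B + D| ^ P + |A - D| ^ P - |A + B| ^ P - |A - B| ^ P
    with hσ
  have h7 : (min |A| |B|) ^ P ≤ 1 / (2 - P) * σ := by
    rw [one_div, ← div_eq_inv_mul, le_div_iff₀ h5]
    linarith
  have h8 : (1 + 2 / (2 - P)) * σ = σ + 2 * (1 / (2 - P) * σ) := by ring
  refine ⟨by linarith, ?_⟩
  have h9 : ∀ t : ℝ, 0 ≤ |t| ^ P := fun t => Real.rpow_nonneg (abs_nonneg _) _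
  have hm : 0 ≤ min |A + D| |B - D| := le_min (abs_nonneg _) (abs_nonneg _)
  rcases le_total |A| |B| with hab | hab
  · rw [min_eq_left hab] at h1 h6 h7
    have := Real.rpow_le_rpow hm (min_le_left _ _) (by linarith : 0 ≤ P)
    have := h9 (A - D)
    linarith
  · rw [min_eq_right hab] at h1 h6 h7
    have := Real.rpow_le_rpow hm (min_le_right _ _) (by linarith : 0 ≤ P)
    have := h9 (B + D)
    linarith

theorem max_abs (A B : ℝ) : max |A + B| |A - B| = |A| + |B| := by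
  rcases le_total 0 A with h1 | h1 <;> rcases le_total 0 B with h2 | h2
  · rw [abs_of_nonneg h1, abs_of_nonneg h2, abs_of_nonneg (add_nonneg h1 h2)]
    exact max_eq_left (abs_le.2 ⟨by linarith, by linarith⟩)
  · rw [abs_of_nonneg h1, abs_of_nonpos h2, abs_of_nonneg (by linarith : 0 ≤ A - B),
      sub_eq_add_neg]
    exact max_eq_right (abs_le.2 ⟨by linarith, by linarith⟩)
  · rw [abs_of_nonpos h1, abs_of_nonneg h2, abs_of_nonpos (by linarith : A - B ≤ 0),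
      show -(A - B) = -A + B by ring]
    exact max_eq_right (abs_le.2 ⟨by linarith, by linarith⟩)
  · rw [abs_of_nonpos h1, abs_of_nonpos h2, abs_of_nonpos (by linarith : A + B ≤ 0),
      show -(A + B) = -A + -B by ring]
    exact max_eq_left (abs_le.2 ⟨by linarith, by linarith⟩)

theorem diag_eq (P A B : ℝ) : |A + B| ^ P + |A - B| ^ P =
    ((|A| + |B|) ^ 2) ^ (P / 2) + ((|A| - |B|) ^ 2) ^ (P / 2) := by
  simp only [abs_rpow_eq_sq_rpow]
  have hA := sq_abs A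
  have hB := sq_abs B
  rcases le_total 0 (A * B) with h1 | h1
  · have h2 : |A| * |B| = A * B := by rw [← abs_mul, abs_of_nonneg h1]
    have h3 : (|A| + |B|) ^ 2 = (A + B) ^ 2 := by linear_combination hA + hB + 2 * h2
    have h4 : (|A| - |B|) ^ 2 = (A - B) ^ 2 := by linear_combination hA + hB - 2 * h2
    rw [h3, h4]
  · have h2 : |A| * |B| = -(A * B) := by rw [← abs_mul, abs_of_nonpos h1]
    have h3 : (|A| + |B|) ^ 2 = (A - B) ^ 2 := by linear_combination hA + hB + 2 * h2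
    have h4 : (|A| - |B|) ^ 2 = (A + B) ^ 2 := by linear_combination hA + hB - 2 * h2
    rw [h3, h4, add_comm]

theorem edge_ge {P : ℝ} (hP : 2 < P) (A B D : ℝ) :
    (2 * A ^ 2 + 2 * B ^ 2 + 4 * D ^ 2) ^ (P / 2) ≤
      2 ^ (P - 2) * (|A + D| ^ P + |B - D| ^ P + |B + D| ^ P + |A - D| ^ P) := by
  have hr : 1 < P / 2 := by linarith
  simp only [abs_rpow_eq_sq_rpow]
  have h1 := (mid_convex hr (sq_nonneg (A + D)) (sq_nonneg (A - D))).1
  have h2 := (mid_convex hr (sq_nonneg (B - D)) (sq_nonneg (B + D))).1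
  have h3 := (mid_convex hr (show 0 ≤ ((A + D) ^ 2 + (A - D) ^ 2) / 2 by positivity)
    (show 0 ≤ ((B - D) ^ 2 + (B + D) ^ 2) / 2 by positivity)).1
  have e3 : (((A + D) ^ 2 + (A - D) ^ 2) / 2 + ((B - D) ^ 2 + (B + D) ^ 2) / 2) / 2 =
      (2 * A ^ 2 + 2 * B ^ 2 + 4 * D ^ 2) / 4 := by ring
  rw [e3] at h3
  have hS0 : 0 ≤ 2 * A ^ 2 + 2 * B ^ 2 + 4 * D ^ 2 := by positivity
  generalize 2 * A ^ 2 + 2 * B ^ 2 + 4 * D ^ 2 = S at *
  have h4 : S ^ (P / 2) = 2 ^ (P - 2) * (4 * (S / 4) ^ (P / 2)) := by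
    rw [Real.div_rpow hS0 (by norm_num), Real.rpow_sub (by norm_num)]
    have h5 : (4 : ℝ) ^ (P / 2) = 2 ^ P := by
      rw [show (4 : ℝ) = 2 ^ 2 by norm_num, sq_rpow_half (by norm_num)]
    have h6 : (0 : ℝ) < 2 ^ P := Real.rpow_pos_of_pos (by norm_num) _
    rw [h5]
    norm_num
    field_simp
  have h7 : (0 : ℝ) < 2 ^ (P - 2) := Real.rpow_pos_of_pos (by norm_num) _
  rw [h4]
  exact mul_le_mul_of_nonneg_left (by linarith) h7.le

theorem drop_le {θ x y : ℝ} (hθ : 1 < θ) (hx : 0 ≤ x) (hy : 0 ≤ y) :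
    x ^ θ ≤ (x + y) ^ θ - (x + y) ^ (θ - 1) * y := by
  have h2 : x ^ (θ - 1) ≤ (x + y) ^ (θ - 1) := Real.rpow_le_rpow hx (by linarith) (by linarith)
  rw [rpow_split (s := θ) hx (by linarith), rpow_split (x := x + y) (s := θ) (by linarith)
    (by linarith)]
  have := mul_le_mul_of_nonneg_right h2 hx
  linarith

theorem quad_fin {θ a b z t w σ : ℝ} (hθ : 1 < θ) (hb : 0 ≤ b) (hba : b ≤ a) (hz : 0 ≤ z)
    (ht0 : 0 ≤ t) (ht : t ≤ 4 * (a + b + z)) (hw : w ≤ 2 * z + 2 * b)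
    (hσ : (a + b + z) ^ (θ - 1) * z + (θ - 1) * (a ^ (θ - 1) * b) ≤ σ) :
    0 ≤ σ ∧ t ^ (θ - 1) * w ≤ 4 * 12 ^ (θ - 1) * (1 + 1 / (θ - 1)) * σ := by
  have ha : 0 ≤ a := hb.trans hba
  have hθ1 : 0 < θ - 1 := by linarith
  have g1 : 0 ≤ (a + b + z) ^ (θ - 1) * z := by positivity
  have g2 : 0 ≤ (θ - 1) * (a ^ (θ - 1) * b) := by positivity
  have h12 : (0 : ℝ) < 12 ^ (θ - 1) := Real.rpow_pos_of_pos (by norm_num) _
  have hinv : 0 < 1 / (θ - 1) := by positivity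
  have h0 : 0 ≤ t ^ (θ - 1) := Real.rpow_nonneg ht0 _
  refine ⟨by linarith, ?_⟩
  rcases le_total b z with hc | hc
  · have h1 : t ^ (θ - 1) ≤ 12 ^ (θ - 1) * (a + b + z) ^ (θ - 1) := by
      rw [← Real.mul_rpow (by norm_num) (by linarith)]
      exact Real.rpow_le_rpow ht0 (by linarith) hθ1.le
    calc t ^ (θ - 1) * w ≤ t ^ (θ - 1) * (4 * z) := by
          gcongr
          linarith
      _ ≤ 12 ^ (θ - 1) * (a + b + z) ^ (θ - 1) * (4 * z) := by gcongr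
      _ = 4 * 12 ^ (θ - 1) * 1 * ((a + b + z) ^ (θ - 1) * z) := by ring
      _ ≤ 4 * 12 ^ (θ - 1) * (1 + 1 / (θ - 1)) * σ := by
          gcongr
          · linarith
          · linarith
  · have h1 : t ^ (θ - 1) ≤ 12 ^ (θ - 1) * a ^ (θ - 1) := by
      rw [← Real.mul_rpow (by norm_num) ha]
      exact Real.rpow_le_rpow ht0 (by linarith) hθ1.le
    calc t ^ (θ - 1) * w ≤ t ^ (θ - 1) * (4 * b) := by
          gcongr
          linarith
      _ ≤ 12 ^ (θ - 1) * a ^ (θ - 1) * (4 * b) := by gcongr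
      _ = 4 * 12 ^ (θ - 1) * (1 / (θ - 1)) * ((θ - 1) * (a ^ (θ - 1) * b)) := by
          field_simp
      _ ≤ 4 * 12 ^ (θ - 1) * (1 + 1 / (θ - 1)) * σ := by
          gcongr
          · linarith
          · linarith

/-- The quadrilateral inequality with a remainder, `2 < P`. -/
theorem quad_gt {P : ℝ} (hP : 2 < P) {e₁ e₂ e₃ e₄ : ℝ} (h : e₁ + e₂ = e₃ + e₄) :
    0 ≤ 2 ^ (P - 2) * (|e₁| ^ P + |e₂| ^ P + |e₃| ^ P + |e₄| ^ P) - |e₁ + e₂| ^ P -
      |e₁ - e₃| ^ P ∧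
    (0 ≤ 2 * |e₁| - max |e₁ + e₂| |e₁ - e₃| →
      (2 * |e₁|) ^ (P - 2) * (2 * |e₁| - max |e₁ + e₂| |e₁ - e₃|) ^ 2 ≤
        4 * 12 ^ (P / 2 - 1) * (1 + 1 / (P / 2 - 1)) *
          (2 ^ (P - 2) * (|e₁| ^ P + |e₂| ^ P + |e₃| ^ P + |e₄| ^ P) - |e₁ + e₂| ^ P -
            |e₁ - e₃| ^ P)) := by
  obtain ⟨A, B, D, rfl, rfl, rfl, rfl⟩ : ∃ A B D : ℝ,
      e₁ = A + D ∧ e₄ = A - D ∧ e₃ = B + D ∧ e₂ = B - D :=
    ⟨(e₁ + e₄) / 2, (e₂ + e₃) / 2, (e₁ - e₄) / 2, by ring, by ring, by linarith, by linarith⟩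
  have e1 : A + D + (B - D) = A + B := by ring
  have e2 : A + D - (B + D) = A - B := by ring
  rw [e1, e2, max_abs]
  have hr : 1 < P / 2 := by linarith
  have hA := abs_nonneg A
  have hB := abs_nonneg B
  have hab : (|A| + |B|) ^ 2 + (|A| - |B|) ^ 2 = 2 * A ^ 2 + 2 * B ^ 2 := by
    linear_combination 2 * sq_abs A + 2 * sq_abs B
  have hb0 : 0 ≤ (|A| - |B|) ^ 2 := sq_nonneg _
  have hba : (|A| - |B|) ^ 2 ≤ (|A| + |B|) ^ 2 := by nlinarith [mul_nonneg hA hB]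
  have hz : 0 ≤ 4 * D ^ 2 := by positivity
  have hdiag := diag_eq P A B
  have hedge := edge_ge hP A B D
  rw [← hab] at hedge
  have hsup := super_add hb0 hba hr.le
  have hdrop := drop_le hr (add_nonneg (hb0.trans hba) hb0) hz
  have ht : (2 * |A + D|) ^ (P - 2) = (4 * (A + D) ^ 2) ^ (P / 2 - 1) := by
    rw [← sq_rpow_half (by positivity), mul_pow, sq_abs]
    congr 1
    · norm_num
    · ring
  have htS : 4 * (A + D) ^ 2 ≤ 4 * ((|A| + |B|) ^ 2 + (|A| - |B|) ^ 2 + 4 * D ^ 2) := by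
    rw [hab]
    nlinarith [sq_nonneg (A - D), sq_nonneg B, sq_nonneg D]
  have hdv : 2 * |A + D| - (|A| + |B|) ≤ 2 * |D| + abs (|A| - |B|) := by
    have := abs_add_le A D
    have := le_abs_self (|A| - |B|)
    linarith
  have key := fun w hw => quad_fin (t := 4 * (A + D) ^ 2) (w := w) (σ := 2 ^ (P - 2) *
    (|A + D| ^ P + |B - D| ^ P + |B + D| ^ P + |A - D| ^ P) - |A + B| ^ P - |A - B| ^ P) hr hb0
    hba hz (by positivity) htS hw (by linarith)
  refine ⟨(key 0 (by positivity)).1, fun hdev => ?_⟩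
  rw [ht]
  refine (key _ ?_).2
  have h1 := pow_le_pow_left₀ hdev hdv 2
  have h2 : abs (|A| - |B|) ^ 2 = (|A| - |B|) ^ 2 := sq_abs _
  nlinarith [sq_abs D, sq_nonneg (2 * |D| - abs (|A| - |B|))]

theorem amgm_half {P : ℝ} (hP : 1 < P) : ∃ θ : ℝ, 0 < θ ∧ θ < 1 ∧
    ∀ u : ℝ, 0 ≤ u → u ≤ θ * √u + (1 - θ) * u ^ P := by
  have h0 : 0 < P - 1 / 2 := by linarith
  have hθ0 : 0 < (P - 1) / (P - 1 / 2) := div_pos (by linarith) h0
  have hθ1 : (P - 1) / (P - 1 / 2) < 1 := by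
    rw [div_lt_one h0]
    linarith
  have hθ : (P - 1) / (P - 1 / 2) * (P - 1 / 2) = P - 1 := div_mul_cancel₀ _ h0.ne'
  refine ⟨_, hθ0, hθ1, fun u hu => ?_⟩
  generalize (P - 1) / (P - 1 / 2) = θ at *
  have h1 := Real.geom_mean_le_arith_mean2_weighted hθ0.le (by linarith : 0 ≤ 1 - θ)
    (Real.sqrt_nonneg u) (Real.rpow_nonneg hu P) (by ring)
  have h3 : 1 / 2 * θ + P * (1 - θ) = 1 := by linarith
  have h2 : √u ^ θ * (u ^ P) ^ (1 - θ) = u := by
    rw [Real.sqrt_eq_rpow, ← Real.rpow_mul hu, ← Real.rpow_mul hu,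
      ← Real.rpow_add' hu (by rw [h3]; norm_num), h3, Real.rpow_one]
  linarith

theorem sqrt_pair {t : ℝ} (h0 : 0 ≤ t) (h1 : t ≤ 1) : √(1 + t) + √(1 - t) ≤ 2 - t ^ 2 / 4 := by
  have s1 := Real.sq_sqrt (by linarith : 0 ≤ 1 + t)
  have s2 := Real.sq_sqrt (by linarith : 0 ≤ 1 - t)
  have ht : t ^ 2 ≤ 1 := by nlinarith
  have s3 : √(1 + t) * √(1 - t) ≤ 1 - t ^ 2 / 2 := by
    rw [← Real.sqrt_mul (by linarith)]
    exact Real.sqrt_le_iff.2 ⟨by linarith, by nlinarith [sq_nonneg (t ^ 2)]⟩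
  refine (pow_le_pow_iff_left₀ (by positivity) (by linarith) two_ne_zero).1 ?_
  nlinarith [sq_nonneg (t ^ 2)]

theorem one_gain {P : ℝ} (hP : 1 < P) : ∃ c : ℝ, 0 < c ∧
    ∀ t : ℝ, 0 ≤ t → t ≤ 1 → 2 + c * t ^ 2 ≤ (1 + t) ^ P + (1 - t) ^ P := by
  obtain ⟨θ, hθ0, hθ1, hamgm⟩ := amgm_half hP
  refine ⟨θ / 4, by positivity, fun t h0 h1 => ?_⟩
  have a1 := hamgm (1 + t) (by linarith)
  have a2 := hamgm (1 - t) (by linarith)
  have s5 : θ * (√(1 + t) + √(1 - t)) ≤ θ * (2 - t ^ 2 / 4) :=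
    mul_le_mul_of_nonneg_left (sqrt_pair h0 h1) hθ0.le
  have s7 : 0 ≤ θ * θ * t ^ 2 := by positivity
  have s6 : (1 - θ) * (2 + θ / 4 * t ^ 2) ≤ (1 - θ) * ((1 + t) ^ P + (1 - t) ^ P) := by
    linarith
  exact le_of_mul_le_mul_left s6 (by linarith)

theorem gain_far {P x y : ℝ} (hP : 1 < P) (hx : 0 ≤ x) (hxy : x ≤ y) :
    y ^ P ≤ 2 ^ P / (2 ^ P - 2) * ((x + y) ^ P + |x - y| ^ P - 2 * x ^ P) := by
  have h2P : (2 : ℝ) < 2 ^ P := by
    have := Real.rpow_lt_rpow_of_exponent_lt (by norm_num : (1 : ℝ) < 2) hP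
    simpa using this
  have b1 : 2 ^ P * x ^ P ≤ (x + y) ^ P := by
    rw [← Real.mul_rpow (by norm_num) hx]
    exact Real.rpow_le_rpow (by linarith) (by linarith) (by linarith)
  have b2 : y ^ P ≤ (x + y) ^ P := Real.rpow_le_rpow (by linarith) (by linarith) (by linarith)
  have n2 : 0 ≤ |x - y| ^ P := by positivity
  rw [div_mul_eq_mul_div, le_div_iff₀ (by linarith)]
  have b3 := mul_le_mul_of_nonneg_right b2 (by linarith : (0 : ℝ) ≤ 2 ^ P - 2)
  have b4 := mul_nonneg (by linarith : (0 : ℝ) ≤ 2 ^ P) n2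
  linarith

theorem gain_near {P c x y l : ℝ} (hP : 1 < P) (hc : 0 < c) (hy : 0 ≤ y) (hxy : y < x)
    (hl : 0 < l) (hl1 : l ≤ 1)
    (hone : ∀ t : ℝ, 0 ≤ t → t ≤ 1 → 2 + c * t ^ 2 ≤ (1 + t) ^ P + (1 - t) ^ P) :
    y ^ P ≤ l * x ^ P + 1 / c / l ^ 2 * ((x + y) ^ P + |x - y| ^ P - 2 * x ^ P) := by
  have hx : 0 < x := by linarith
  have hxP : 0 < x ^ P := Real.rpow_pos_of_pos hx _
  have ht0 : 0 ≤ y / x := by positivity
  have ht1 : y / x ≤ 1 := by
    rw [div_le_one hx]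
    linarith
  have b1 := hone (y / x) ht0 ht1
  have e1 : 1 + y / x = (x + y) / x := by field_simp
  have e2 : 1 - y / x = |x - y| / x := by
    rw [abs_of_pos (by linarith)]
    field_simp
  rw [e1, e2, Real.div_rpow (by linarith) hx.le, Real.div_rpow (abs_nonneg _) hx.le,
    ← add_div, le_div_iff₀ hxP] at b1
  have b2 : c * (y / x) ^ 2 * x ^ P ≤ (x + y) ^ P + |x - y| ^ P - 2 * x ^ P := by linarith
  have b3 : y ^ P = (y / x) ^ (P - 1) * (y / x) * x ^ P := by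
    rw [← rpow_split ht0 (by linarith), Real.div_rpow hy hx.le]
    field_simp
  have b4 : (y / x) ^ (P - 1) ≤ 1 := Real.rpow_le_one ht0 ht1 (by linarith)
  generalize y / x = t at *
  generalize (x + y) ^ P + |x - y| ^ P - 2 * x ^ P = σ at *
  have b5 : y ^ P ≤ t * x ^ P := by
    rw [b3]
    exact mul_le_mul_of_nonneg_right (mul_le_of_le_one_left ht0 b4) hxP.le
  have hσ : 0 ≤ σ := le_trans (by positivity) b2
  have q1 : 0 ≤ 1 / c / l ^ 2 * σ := by positivity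
  have q2 : 0 ≤ l * x ^ P := by positivity
  rcases le_total t l with htl | htl
  · have : t * x ^ P ≤ l * x ^ P := mul_le_mul_of_nonneg_right htl hxP.le
    linarith
  · have c2 : t ≤ 1 / c / l ^ 2 * (c * t ^ 2) := by
      have e : 1 / c / l ^ 2 * (c * t ^ 2) = t ^ 2 / l ^ 2 := by field_simp
      rw [e, le_div_iff₀ (by positivity)]
      have h1 : l ^ 2 ≤ t := by nlinarith
      calc t * l ^ 2 ≤ t * t := mul_le_mul_of_nonneg_left h1 ht0
        _ = t ^ 2 := by ring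
    have c3 : t * x ^ P ≤ 1 / c / l ^ 2 * (c * t ^ 2) * x ^ P :=
      mul_le_mul_of_nonneg_right c2 hxP.le
    have c4 : 1 / c / l ^ 2 * (c * t ^ 2 * x ^ P) ≤ 1 / c / l ^ 2 * σ :=
      mul_le_mul_of_nonneg_left b2 (by positivity)
    have c5 : 1 / c / l ^ 2 * (c * t ^ 2) * x ^ P = 1 / c / l ^ 2 * (c * t ^ 2 * x ^ P) := by ring
    linarith

/-- Uniform convexity of `|x| ^ P` with a polynomial modulus. -/
theorem mid_gain {P : ℝ} (hP : 1 < P) : ∃ C : ℝ, 0 < C ∧ ∀ l : ℝ, 0 < l → l ≤ 1 → ∀ M h : ℝ,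
    |h| ^ P ≤ l * (|M + h| ^ P + |M - h| ^ P) +
      C / l ^ 2 * (|M + h| ^ P + |M - h| ^ P - 2 * |M| ^ P) := by
  obtain ⟨c, hc, hone⟩ := one_gain hP
  have h2P : (2 : ℝ) < 2 ^ P := by
    have := Real.rpow_lt_rpow_of_exponent_lt (by norm_num : (1 : ℝ) < 2) hP
    simpa using this
  have hc2 : 0 < (2 : ℝ) ^ P / (2 ^ P - 2) := div_pos (by linarith) (by linarith)
  refine ⟨1 / c + 2 ^ P / (2 ^ P - 2), by positivity, fun l hl hl1 M h => ?_⟩
  have hsym : |M + h| ^ P + |M - h| ^ P = (|M| + |h|) ^ P + abs (|M| - |h|) ^ P := by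
    rw [diag_eq, sq_rpow_half (by positivity), ← abs_rpow_eq_sq_rpow]
  have hmid := mid_le hP M h
  rw [hsym] at hmid ⊢
  have hM := abs_nonneg M
  have hh := abs_nonneg h
  generalize |M| = x at *
  generalize |h| = y at *
  have hl2 : 1 ≤ 1 / l ^ 2 := by
    rw [le_div_iff₀ (by positivity)]
    nlinarith
  have n0 : 0 ≤ x ^ P := by positivity
  have hfar := fun hxy : x ≤ y => gain_far hP hM hxy
  have hnear := fun hxy : y < x => gain_near hP hc hh hxy hl hl1 hone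
  generalize (x + y) ^ P + |x - y| ^ P = S at *
  generalize (2 : ℝ) ^ P / (2 ^ P - 2) = K at *
  have hσ0 : 0 ≤ S - 2 * x ^ P := by linarith
  have hsplit : (1 / c + K) / l ^ 2 * (S - 2 * x ^ P) =
      1 / c / l ^ 2 * (S - 2 * x ^ P) + 1 / l ^ 2 * (K * (S - 2 * x ^ P)) := by ring
  have q1 : 0 ≤ 1 / c / l ^ 2 * (S - 2 * x ^ P) := by positivity
  have q2 : K * (S - 2 * x ^ P) ≤ 1 / l ^ 2 * (K * (S - 2 * x ^ P)) :=
    le_mul_of_one_le_left (by positivity) hl2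
  have q4 : 0 ≤ K * (S - 2 * x ^ P) := by positivity
  have q3 : l * x ^ P ≤ l * S := mul_le_mul_of_nonneg_left (by linarith) hl.le
  have q5 : 0 ≤ l * x ^ P := by positivity
  rw [hsplit]
  rcases le_or_gt x y with hxy | hxy
  · have := hfar hxy
    linarith
  · have := hnear hxy
    linarith

end Vale.Agent.N249
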