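import Vale.Agent.N249.Tree

/-!
# N249: lower bounds for `d_p(n, 1 + ε)` for small `ε`
-/

open scoped BigOperators ENNReal
open Filter Topology

universe u

namespace Vale.Agent.N249

open Vale.Agent.P249Z

variable {p : ℝ≥0∞} [Fact (1 ≤ p)]

theorem good_of_finAdm (hp : p ≠ ∞) {n d : ℕ} {D : ℝ} (hD : 0 ≤ D) (h : FinAdm p n D d)
    (J : Type) [Fintype J] [Nonempty J] (X : Finset (J → ℝ)) (hX : X.card ≤ n) :
    ∃ g : (J → ℝ) → Fin d → ℝ, Good p.toReal (D ^ p.toReal) (X : Set (J → ℝ)) g := by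
  classical
  have hP := toReal_pos' (p := p) hp
  obtain ⟨Y, hXY, hY⟩ := Infinite.exists_superset_card_eq X n hX
  obtain ⟨g, s, hs, hg⟩ := h Y J (fun i => WithLp.toLp p i.1) (by simp [hY])
    (fun i j hij => Subtype.ext ((WithLp.toLp_injective p) hij))
  refine ⟨fun x => if hx : x ∈ Y then fun i => s⁻¹ * g ⟨x, hx⟩ i else 0, fun x hx y hy => ?_⟩
  have hx' : x ∈ Y := hXY (Finset.mem_coe.1 hx)
  have hy' : y ∈ Y := hXY (Finset.mem_coe.1 hy)
  simp only [dif_pos hx', dif_pos hy']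
  obtain ⟨h1, h2⟩ := hg ⟨x, hx'⟩ ⟨y, hy'⟩
  have e1 : A p.toReal (x - y) = ‖WithLp.toLp p x - WithLp.toLp p y‖ ^ p.toReal := by
    rw [norm_rpow_sum hp]
    rfl
  have e2 : A p.toReal ((fun i => s⁻¹ * g ⟨x, hx'⟩ i) - fun i => s⁻¹ * g ⟨y, hy'⟩ i) =
      (s⁻¹ * ‖g ⟨x, hx'⟩ - g ⟨y, hy'⟩‖) ^ p.toReal := by
    rw [← abs_of_pos (inv_pos.2 hs), ← Real.norm_eq_abs, ← norm_smul, norm_rpow_sum hp,
      Real.norm_eq_abs, abs_of_pos (inv_pos.2 hs)]
    refine Finset.sum_congr rfl fun i _ => ?_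
    simp [mul_sub]
  rw [e1, e2, ← Real.mul_rpow hD (norm_nonneg _)]
  constructor
  · refine Real.rpow_le_rpow (norm_nonneg _) ?_ hP.le
    rw [le_inv_mul_iff₀ hs]
    exact h1
  · refine Real.rpow_le_rpow (by positivity) ?_ hP.le
    rw [inv_mul_le_iff₀ hs]
    linarith

omit [Fact (1 ≤ p)] in
theorem one_lt_toReal (hp1 : 1 < p) (hp : p ≠ ∞) : 1 < p.toReal := by
  have := (ENNReal.toReal_lt_toReal ENNReal.one_ne_top hp).2 hp1
  simpa using this

omit [Fact (1 ≤ p)] in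
theorem toReal_ne_two (hp : p ≠ ∞) (hp2 : p ≠ 2) : p.toReal ≠ 2 := by
  intro h2
  apply hp2
  rw [← ENNReal.ofReal_toReal hp, h2]
  simp

theorem good_dimU (hp : p ≠ ∞) {n : ℕ} {D : ℝ} (hD : 1 ≤ D) (J : Type) [Fintype J] [Nonempty J]
    (X : Finset (J → ℝ)) (hX : X.card ≤ n) : ∃ g : (J → ℝ) → Fin (dimU.{u} p n D) → ℝ,
      Good p.toReal (D ^ p.toReal) (X : Set (J → ℝ)) g :=
  good_of_finAdm hp (by linarith) ((dimU_isLeast.{u} hp n hD).1.finAdm hp) J X hX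

theorem exists_step {P : ℝ} (hP1 : 1 < P) (hP2 : P ≠ 2) : ∃ c G : ℝ, 0 < c ∧ 0 < G ∧
    ∀ l : ℝ, 0 < l → Step P c l (G * l ^ (1 - min P 2)) := by
  rcases lt_or_gt_of_ne hP2 with h | h
  · have : 0 < 2 - P := by linarith
    refine ⟨1, 1 + 2 / (2 - P), one_pos, by positivity, fun l hl => ?_⟩
    rw [min_eq_left h.le]
    exact step_lt hP1 h hl
  · have : 0 < P / 2 - 1 := by linarith
    refine ⟨2, 4 * 12 ^ (P / 2 - 1) * (1 + 1 / (P / 2 - 1)), two_pos, by positivity,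
      fun l hl => ?_⟩
    rw [min_eq_right h.le, show (1 : ℝ) - 2 = -1 by norm_num, Real.rpow_neg_one]
    exact step_gt h hl

theorem pow_one_add {P ε : ℝ} (hP : 1 ≤ P) (h0 : 0 ≤ ε) (h1 : ε ≤ 1) :
    1 ≤ (1 + ε) ^ P ∧ (1 + ε) ^ P ≤ 2 ^ P ∧ (1 + ε) ^ P - 1 ≤ P * 2 ^ P * ε := by
  refine ⟨Real.one_le_rpow (by linarith) (by linarith),
    Real.rpow_le_rpow (by linarith) (by linarith) (by linarith), ?_⟩
  have h2 := pow_sub_le (x := 1 + ε) (y := 1) zero_le_one (by linarith) hP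
  have h3 : (1 + ε) ^ (P - 1) ≤ 2 ^ P :=
    (Real.rpow_le_rpow (by linarith) (by linarith) (by linarith)).trans
      (Real.rpow_le_rpow_of_exponent_le (by norm_num) (by linarith))
  rw [Real.one_rpow, add_sub_cancel_left] at h2
  refine h2.trans ?_
  gcongr

theorem master (hp1 : 1 < p) (hp : p ≠ ∞) (hp2 : p ≠ 2) : ∃ C : ℝ, 0 < C ∧ ∀ n k : ℕ,
    2 ^ (k + 1) ≤ n → ∀ ε : ℝ, 0 < ε → ε ≤ 1 →
      2 ^ k * Real.exp (-(C * ε ^ (1 / min p.toReal 2) * k ^ 2)) ≤ dimU.{u} p n (1 + ε) := by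
  classical
  have hP1 := one_lt_toReal hp1 hp
  obtain ⟨c, G, hc, hG, hs⟩ := exists_step hP1 (toReal_ne_two hp hp2)
  have hm : 1 ≤ min p.toReal 2 := le_min hP1.le (by norm_num)
  have hgood := fun n ε (hε : 0 < ε) => good_dimU.{u} hp (n := n) (D := 1 + ε) (by linarith)
  have hone := fun n (hn : 2 ≤ n) ε (hε : 0 < ε) =>
    one_le_dimU.{u} hp hn (D := 1 + ε) (by linarith)
  generalize min p.toReal 2 = m at *
  generalize p.toReal = P at *
  have hT : (1 : ℝ) ≤ 2 ^ P := Real.one_le_rpow (by norm_num) (by linarith)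
  refine ⟨(2 ^ P + 1) * (P * 2 ^ P) + 2 * (P * 2 * 2 ^ P * (2 ^ P + 2 * G * (P * 2 ^ P))),
    by positivity, fun n k hn ε hε hε1 => ?_⟩
  have hn2 : 2 ≤ n := le_trans (by
    calc 2 = 2 ^ 1 := rfl
      _ ≤ 2 ^ (k + 1) := Nat.pow_le_pow_right (by norm_num) (by omega)) hn
  rcases Nat.eq_zero_or_pos k with rfl | hk
  · simpa using hone n hn2 ε hε
  have hk1 : (1 : ℝ) ≤ k := by exact_mod_cast hk
  have hl : 0 < ε ^ (1 / m) := Real.rpow_pos_of_pos hε _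
  have hlm : (ε ^ (1 / m)) ^ (1 - m) * ε = ε ^ (1 / m) := by
    rw [← Real.rpow_mul hε.le, ← Real.rpow_add_one hε.ne']
    congr 1
    field_simp
    ring
  have hεl : ε ≤ ε ^ (1 / m) := by
    conv_lhs => rw [← Real.rpow_one ε]
    refine Real.rpow_le_rpow_of_exponent_ge hε hε1 ?_
    rw [div_le_one (by linarith)]
    exact hm
  obtain ⟨hK1, hK2, hK3⟩ := pow_one_add hP1.le hε.le hε1
  have hδ : (0 : ℝ) ≤ (k : ℝ)⁻¹ := by positivity
  have hδ1 : (k : ℝ)⁻¹ ≤ 1 := inv_le_one_of_one_le₀ hk1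
  have hlG : 0 ≤ (ε ^ (1 / m)) ^ (1 - m) := Real.rpow_nonneg hl.le _
  obtain ⟨Z, hZ, H⟩ := tree hP1.le hc hl.le (by positivity) hK1 hδ (hs _ hl) (Fin (2 ^ k)) k 0 1
    Finset.univ one_pos (by simp)
  obtain ⟨g, hg⟩ := hgood n ε hε (Fin (2 ^ k)) (insert 0 (insert (0 + ind Finset.univ 1) Z)) (by
    have h1 := Finset.card_insert_le 0 (insert (0 + ind Finset.univ 1) Z)
    have h2 := Finset.card_insert_le (0 + ind Finset.univ 1) Z
    omega)
  have H1 := H _ g (by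
    simpa only [Finset.coe_insert, Set.insert_union, Set.singleton_union] using hg)
  have H2 := (hg (0 + ind Finset.univ 1) (by simp) 0 (by simp)).1
  rw [A_edge (by linarith) one_pos] at H2
  have H3 := A_low (P := P) hδ (g (0 + ind Finset.univ 1) - g 0)
  simp only [Finset.card_univ, Fintype.card_fin, Nat.cast_pow, Nat.cast_ofNat] at H2
  have H4 := Real.rpow_le_rpow (by positivity) H2 (by linarith : 0 ≤ 1 + (k : ℝ)⁻¹)
  have h2k : ((2 : ℝ) ^ (k : ℝ)⁻¹)⁻¹ ^ k = 1 / 2 := by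
    rw [inv_pow, Real.rpow_inv_natCast_pow (by norm_num) hk.ne']
    norm_num
  rw [h2k] at H1
  set d := dimU.{u} p n (1 + ε)
  have hd : (0 : ℝ) ≤ (d : ℝ) ^ (k : ℝ)⁻¹ := by positivity
  have hL : 0 < ((1 : ℝ) ^ P * 2 ^ k) ^ (1 + (k : ℝ)⁻¹) := by positivity
  have H5 := H4.trans (H3.trans (mul_le_mul_of_nonneg_left H1 hd))
  rw [mul_left_comm] at H5
  have H6 := (le_mul_iff_one_le_right hL).1 H5
  generalize ε ^ (1 / m) = l at *
  generalize (1 + ε) ^ P = K at *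
  generalize (2 : ℝ) ^ P = T at *
  have a1 : K ^ (k : ℝ)⁻¹ ≤ K := by
    conv_rhs => rw [← Real.rpow_one K]
    exact Real.rpow_le_rpow_of_exponent_le hK1 hδ1
  have a0 : 0 ≤ K ^ (k : ℝ)⁻¹ := by positivity
  have a2 : K - 1 ≤ P * T * l := hK3.trans (by gcongr)
  have a3 : K ^ (1 + (k : ℝ)⁻¹) ≤ 1 + (T + 1) * (P * T) * l * k := by
    rw [Real.rpow_add (by linarith), Real.rpow_one]
    have b1 : K * K ^ (k : ℝ)⁻¹ ≤ K * K := by gcongr
    have b2 : (K + 1) * (K - 1) ≤ (T + 1) * (P * T * l) := by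
      have : 0 ≤ K - 1 := by linarith
      gcongr
    have b3 : (T + 1) * (P * T * l) ≤ (T + 1) * (P * T * l) * k :=
      le_mul_of_one_le_right (by positivity) hk1
    linarith
  have a4 : l * K + 2 * (G * l ^ (1 - m)) * (K - 1) ≤ l * (T + 2 * G * (P * T)) := by
    have b1 : l * K ≤ l * T := by gcongr
    have b2 : l ^ (1 - m) * (K - 1) ≤ l ^ (1 - m) * (P * T * ε) := by gcongr
    have b3 : l ^ (1 - m) * (P * T * ε) = P * T * l := by
      rw [← hlm]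
      nth_rewrite 1 [hlm]
      ring
    have b4 := mul_le_mul_of_nonneg_left (b2.trans_eq b3) (by positivity : 0 ≤ 2 * G)
    linarith
  have a5 : P * (1 + (k : ℝ)⁻¹) * K ^ (k : ℝ)⁻¹ * (l * K + 2 * (G * l ^ (1 - m)) * (K - 1)) ≤
      P * 2 * T * (l * (T + 2 * G * (P * T))) := by
    have : 0 ≤ K - 1 := by linarith
    gcongr
    · linarith
    · linarith
  have a6 := mul_le_mul_of_nonneg_left a5 (by linarith : (0 : ℝ) ≤ k)
  set C := (T + 1) * (P * T) + 2 * (P * 2 * T * (T + 2 * G * (P * T))) with hC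
  have a7 := Real.add_one_le_exp (C * l * k)
  have a8 : 1 ≤ (d : ℝ) ^ (k : ℝ)⁻¹ * (Real.exp (C * l * k) / 2) := by
    refine H6.trans (mul_le_mul_of_nonneg_left ?_ hd)
    rw [hC] at a7 ⊢
    linarith
  have a9 := pow_le_pow_left₀ zero_le_one a8 k
  rw [one_pow, mul_pow, Real.rpow_inv_natCast_pow (by positivity) hk.ne', div_pow,
    ← Real.exp_nat_mul, ← mul_div_assoc, le_div_iff₀ (by positivity), one_mul] at a9
  rw [Real.exp_neg, ← div_eq_mul_inv, div_le_iff₀ (Real.exp_pos _)]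
  convert a9 using 3
  ring

end Vale.Agent.N249
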