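import Vale.Agent.N249.Master

/-!
# N249: nearly isometric embeddings need quadratic dimension
-/

open scoped BigOperators ENNReal

universe u

namespace Vale.Agent.N249

open Vale.Agent.P249Z

section
variable {I : Type} [Fintype I] {P : ℝ}

theorem A_comm (P : ℝ) (u v : I → ℝ) : A P (u - v) = A P (v - u) :=
  Finset.sum_congr rfl fun i _ => by rw [Pi.sub_apply, abs_sub_comm, Pi.sub_apply]

theorem A_neg (P : ℝ) (u : I → ℝ) : A P (-u) = A P u :=
  Finset.sum_congr rfl fun i _ => by rw [Pi.neg_apply, abs_neg]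

theorem abs_two_mul_rpow (P x : ℝ) : |2 * x| ^ P = 2 ^ P * |x| ^ P := by
  rw [abs_mul, abs_two, Real.mul_rpow (by norm_num) (abs_nonneg _)]

theorem A_sub_le (hP : 1 < P) (u v : I → ℝ) : A P (u - v) ≤ 2 ^ P * (A P u + A P v) := by
  simp only [A, ← Finset.sum_add_distrib, Finset.mul_sum]
  refine Finset.sum_le_sum fun i _ => ?_
  have h := mid_le hP (u i - v i) (u i + v i)
  rw [show u i - v i + (u i + v i) = 2 * u i by ring,
    show u i - v i - (u i + v i) = 2 * -v i by ring, abs_two_mul_rpow, abs_two_mul_rpow,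
    abs_neg] at h
  have := Real.rpow_nonneg (abs_nonneg (u i - v i)) P
  rw [Pi.sub_apply]
  linarith

theorem A_pert (hP : 1 < P) {l : ℝ} (hl : 0 < l) (z x : I → ℝ) :
    A P z - A P x ≤ P * (l * A P z + l ^ (1 - P) * A P (z - x)) := by
  simp only [A, ← Finset.sum_add_distrib, ← Finset.sum_sub_distrib, Finset.mul_sum]
  refine Finset.sum_le_sum fun i _ => ?_
  have h1 := pow_sub_le (abs_nonneg (x i)) (abs_nonneg (z i)) hP.le
  have h2 := young_lt hP.le hl (abs_nonneg (z i)) (abs_nonneg (z i - x i))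
  have h3 := mul_le_mul_of_nonneg_left (abs_sub_abs_le_abs_sub (z i) (x i))
    (Real.rpow_nonneg (abs_nonneg (z i)) (P - 1))
  have h4 := mul_le_mul_of_nonneg_left (h3.trans h2) (by linarith : 0 ≤ P)
  rw [Pi.sub_apply]
  linarith

theorem A_close (hP : 1 < P) {l M E : ℝ} (hl : 0 < l) {z x : I → ℝ} (hz : A P z ≤ M)
    (hx : A P x ≤ M) (hE : A P (z - x) ≤ E * l ^ P) : |A P z - A P x| ≤ P * (M + E) * l := by
  have h0 : l ^ (1 - P) * (E * l ^ P) = E * l := by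
    rw [mul_left_comm, ← Real.rpow_add hl]
    simp
  have h1 := mul_le_mul_of_nonneg_left hE (Real.rpow_nonneg hl.le (1 - P))
  have key : ∀ a b : ℝ, a ≤ M → b = A P (z - x) → P * (l * a + l ^ (1 - P) * b) ≤
      P * (M + E) * l := by
    intro a b ha hb
    have h2 := mul_le_mul_of_nonneg_left ha hl.le
    rw [hb, mul_assoc]
    exact mul_le_mul_of_nonneg_left (by linarith) (by linarith)
  rw [abs_le]
  constructor
  · have := (A_pert hP hl x z).trans (key _ _ hx (A_comm P x z))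
    linarith
  · exact (A_pert hP hl z x).trans (key _ _ hz rfl)

theorem A_mid (hP : 1 < P) : ∃ C : ℝ, 0 < C ∧ ∀ l : ℝ, 0 < l → l ≤ 1 →
    ∀ (I : Type) [Fintype I] (c b : I → ℝ), A P (c + b) ≤ l * (2 ^ P * (A P c + A P b)) +
      C / l ^ 2 * (2 ^ P * (A P c + A P b) - 2 * A P (c - b)) := by
  obtain ⟨C, hC, h⟩ := mid_gain hP
  refine ⟨C, hC, fun l hl hl1 I _ c b => ?_⟩
  simp only [A, ← Finset.sum_add_distrib, ← Finset.sum_sub_distrib, Finset.mul_sum]
  refine Finset.sum_le_sum fun i _ => ?_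
  have h1 := h l hl hl1 (c i - b i) (c i + b i)
  rw [show c i - b i + (c i + b i) = 2 * c i by ring,
    show c i - b i - (c i + b i) = 2 * -b i by ring, abs_two_mul_rpow, abs_two_mul_rpow,
    abs_neg] at h1
  rw [Pi.sub_apply, Pi.add_apply]
  linarith

/-- the vector `c` with the signs changed where `t = 1` -/
def flip (c t : I → ℝ) : I → ℝ := fun x => c x * (1 - 2 * t x)

theorem round (hP1 : 1 < P) (hP2 : P ≠ 2) (a c : I → ℝ) : ∃ t : I → ℝ,
    (∀ x, t x = 0 ∨ t x = 1) ∧ |P - 2| * A P (a - flip c t) ≤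
      |2 * (A P (a + c) + A P (a - c)) - 2 ^ P * (A P a + A P c)| := by
  refine ⟨fun x => if |a x - c x| ≤ |a x + c x| then 0 else 1, fun x => by
    dsimp only
    split_ifs <;> simp, ?_⟩
  have hmin : ∀ x, |(a - flip c fun x => if |a x - c x| ≤ |a x + c x| then 0 else 1) x| =
      min |a x + c x| |a x - c x| := by
    intro x
    simp only [Pi.sub_apply, flip]
    split_ifs with h
    · rw [min_eq_right h]
      congr 1
      ring
    · rw [min_eq_left (not_le.1 h).le]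
      congr 1
      ring
  have e1 : ∀ x, a x + c x + (a x - c x) = 2 * a x := fun x => by ring
  have e2 : ∀ x, a x + c x - (a x - c x) = 2 * c x := fun x => by ring
  rcases lt_or_gt_of_ne hP2 with h | h
  · refine le_trans ?_ (le_abs_self _)
    rw [abs_of_neg (by linarith)]
    simp only [A, hmin, ← Finset.sum_add_distrib, ← Finset.sum_sub_distrib, Finset.mul_sum]
    refine Finset.sum_le_sum fun x _ => ?_
    have := clark_lt (by linarith) h (a x + c x) (a x - c x)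
    rw [e1, e2, abs_two_mul_rpow, abs_two_mul_rpow] at this
    rw [Pi.sub_apply, Pi.add_apply]
    linarith
  · refine le_trans ?_ (neg_le_abs _)
    rw [abs_of_pos (by linarith), neg_sub]
    simp only [A, hmin, ← Finset.sum_add_distrib, ← Finset.sum_sub_distrib, Finset.mul_sum]
    refine Finset.sum_le_sum fun x _ => ?_
    have := clark_gt h (a x + c x) (a x - c x)
    rw [e1, e2, abs_two_mul_rpow, abs_two_mul_rpow] at this
    rw [Pi.sub_apply, Pi.add_apply]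
    linarith

theorem A_flip (P : ℝ) (c : I → ℝ) {t : I → ℝ} (ht : ∀ x, t x = 0 ∨ t x = 1) :
    A P (flip c t) = A P c := by
  refine Finset.sum_congr rfl fun x _ => ?_
  rcases ht x with h | h <;> simp only [flip, h]
  · norm_num
  · norm_num

theorem flip_flip (hP : 0 < P) (c : I → ℝ) {s t : I → ℝ} (hs : ∀ x, s x = 0 ∨ s x = 1)
    (ht : ∀ x, t x = 0 ∨ t x = 1) :
    A P (flip c s - flip c t) = 2 ^ P * ∑ x, |c x| ^ P * (s x + t x - 2 * (s x * t x)) := by
  rw [A, Finset.mul_sum]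
  refine Finset.sum_congr rfl fun x _ => ?_
  have h0 := abs_two_mul_rpow P (c x)
  rcases hs x with h | h <;> rcases ht x with h' | h' <;> simp only [Pi.sub_apply, flip, h, h']
  · simp [Real.zero_rpow hP.ne']
  · rw [show c x * (1 - 2 * 0) - c x * (1 - 2 * 1) = 2 * c x by ring, h0]
    ring
  · rw [show c x * (1 - 2 * 1) - c x * (1 - 2 * 0) = -(2 * c x) by ring, abs_neg, h0]
    ring
  · simp [Real.zero_rpow hP.ne']
    norm_num

omit [Fintype I] in
theorem flip_zero (c : I → ℝ) : flip c 0 = c := by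
  funext x
  simp [flip]

omit [Fintype I] in
theorem flip_one (c : I → ℝ) : flip c 1 = -c := by
  funext x
  simp only [flip, Pi.one_apply, Pi.neg_apply]
  ring

theorem flip_sub (hP : 0 < P) (c : I → ℝ) {s : I → ℝ} (hs : ∀ x, s x = 0 ∨ s x = 1) :
    A P (flip c s - c) = 2 ^ P * ∑ x, |c x| ^ P * s x := by
  have := flip_flip hP c hs (t := 0) (fun _ => Or.inl rfl)
  simpa [flip_zero] using this

theorem flip_add (hP : 0 < P) (c : I → ℝ) {s : I → ℝ} (hs : ∀ x, s x = 0 ∨ s x = 1) :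
    A P (flip c s + c) + A P (flip c s - c) = 2 ^ P * A P c := by
  have := flip_flip hP c hs (t := 1) (fun _ => Or.inr rfl)
  rw [flip_one, sub_neg_eq_add] at this
  rw [this, flip_sub hP c hs, ← mul_add, ← Finset.sum_add_distrib, A]
  congr 1
  refine Finset.sum_congr rfl fun x _ => ?_
  simp only [Pi.one_apply]
  ring

theorem inter (hP : 0 < P) (c : I → ℝ) {s t : I → ℝ} (hs : ∀ x, s x = 0 ∨ s x = 1)
    (ht : ∀ x, t x = 0 ∨ t x = 1) : 2 ^ P * (2 * ∑ x, |c x| ^ P * (s x * t x)) =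
      A P (flip c s - c) + A P (flip c t - c) - A P (flip c s - flip c t) := by
  rw [flip_sub hP c hs, flip_sub hP c ht, flip_flip hP c hs ht, ← mul_add, ← mul_sub,
    ← Finset.sum_add_distrib, ← Finset.sum_sub_distrib, Finset.mul_sum]
  congr 1
  exact Finset.sum_congr rfl fun x _ => by ring

theorem ident {m : ℕ} (w : I → ℝ) (t : Fin m → I → ℝ) :
    ∑ x, w x * (∑ i, t i x - 2) ^ 2 = ∑ i, ∑ j, ∑ x, w x * (t i x * t j x) -
      4 * ∑ i, ∑ x, w x * t i x + 4 * ∑ x, w x := by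
  have h1 : ∑ i, ∑ j, ∑ x, w x * (t i x * t j x) = ∑ x, w x * (∑ i, t i x) ^ 2 := by
    calc ∑ i, ∑ j, ∑ x, w x * (t i x * t j x) = ∑ i, ∑ x, ∑ j, w x * (t i x * t j x) :=
          Finset.sum_congr rfl fun i _ => Finset.sum_comm
      _ = ∑ x, ∑ i, ∑ j, w x * (t i x * t j x) := Finset.sum_comm
      _ = _ := by
          refine Finset.sum_congr rfl fun x _ => ?_
          rw [sq, Finset.sum_mul_sum, Finset.mul_sum]
          exact Finset.sum_congr rfl fun i _ => (Finset.mul_sum _ _ _).symm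
  have h2 : ∑ i, ∑ x, w x * t i x = ∑ x, w x * ∑ i, t i x := by
    simp only [Finset.mul_sum]
    exact Finset.sum_comm
  rw [h1, h2, Finset.mul_sum, Finset.mul_sum, ← Finset.sum_sub_distrib, ← Finset.sum_add_distrib]
  exact Finset.sum_congr rfl fun x _ => by ring

end

/-- the indicator of `i ∈ q` -/
def mem (m : ℕ) (i : Fin m) (q : Pairs m) : ℝ := if i = q.1.1 ∨ i = q.1.2 then 1 else 0

theorem mem01 (m : ℕ) (i : Fin m) (q : Pairs m) : mem m i q = 0 ∨ mem m i q = 1 := by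
  unfold mem
  split_ifs <;> simp

theorem sum_mem (m : ℕ) (q : Pairs m) : ∑ i, mem m i q = 2 := by
  have h : ∀ i, mem m i q = (if i = q.1.1 then 1 else 0) + if i = q.1.2 then 1 else 0 := by
    intro i
    have := q.2.ne
    unfold mem
    by_cases h1 : i = q.1.1 <;> by_cases h2 : i = q.1.2 <;> simp_all
  simp only [h, Finset.sum_add_distrib, Finset.sum_ite_eq', Finset.mem_univ, if_true]
  norm_num

theorem count {m d : ℕ} {η : ℝ} (w : Fin d → ℝ) (hw : ∀ x, 0 ≤ w x) (t : Fin m → Fin d → ℝ)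
    (ht : ∀ i x, t i x = 0 ∨ t i x = 1) (h0 : ∑ x, w x ≤ ∑ _q : Pairs m, (1 : ℝ) + η)
    (h1 : ∀ i, ∑ q, 1 * mem m i q - η ≤ ∑ x, w x * t i x)
    (h2 : ∀ i j, |∑ x, w x * (t i x * t j x) - ∑ q, 1 * (mem m i q * mem m j q)| ≤ η)
    (hη : ((m : ℝ) ^ 2 + 4 * m + 5) * η < 1) : m.choose 2 ≤ d := by
  classical
  have ht0 : ∀ i x, 0 ≤ t i x := fun i x => by rcases ht i x with h | h <;> simp [h]
  have e1 := ident w t
  have e2 := ident (fun _ => (1 : ℝ)) (mem m)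
  simp only [sum_mem, sub_self] at e2
  have s1 := Finset.sum_le_sum fun i (_ : i ∈ Finset.univ) => h1 i
  have s2 := Finset.sum_le_sum fun i (_ : i ∈ Finset.univ) =>
    Finset.sum_le_sum fun j (_ : j ∈ Finset.univ) => (abs_le.1 (h2 i j)).2
  simp only [Finset.sum_sub_distrib, Finset.sum_const, Finset.card_univ, Fintype.card_fin,
    nsmul_eq_mul] at s1 s2 e2 h0
  have hsm : ∑ x, w x * (∑ i, t i x - 2) ^ 2 ≤ ((m : ℝ) ^ 2 + 4 * m + 4) * η := by
    rw [e1]
    linarith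
  have key : ∀ q : Pairs m, ∃ x, t q.1.1 x = 1 ∧ t q.1.2 x = 1 ∧
      ∀ l, t l x = 1 → l = q.1.1 ∨ l = q.1.2 := by
    intro q
    by_contra hc
    push Not at hc
    have a1 : ∑ x, w x * (t q.1.1 x * t q.1.2 x) ≤ ∑ x, w x * (∑ i, t i x - 2) ^ 2 := by
      refine Finset.sum_le_sum fun x _ => mul_le_mul_of_nonneg_left ?_ (hw x)
      rcases ht q.1.1 x with b1 | b1
      · rw [b1, zero_mul]
        positivity
      rcases ht q.1.2 x with b2 | b2
      · rw [b2, mul_zero]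
        positivity
      obtain ⟨l, b3, b4, b5⟩ := hc x b1 b2
      have b6 : ∑ i ∈ {l, q.1.1, q.1.2}, t i x ≤ ∑ i, t i x :=
        Finset.sum_le_sum_of_subset_of_nonneg (Finset.subset_univ _) fun i _ _ => ht0 i x
      rw [Finset.sum_insert (by simp [b4, b5]), Finset.sum_pair q.2.ne, b1, b2, b3] at b6
      rw [b1, b2]
      nlinarith
    have a2 : 1 * (mem m q.1.1 q * mem m q.1.2 q) ≤ ∑ q', 1 * (mem m q.1.1 q' * mem m q.1.2 q') :=
      Finset.single_le_sum (f := fun q' => 1 * (mem m q.1.1 q' * mem m q.1.2 q')) (fun q' _ => by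
        rcases mem01 m q.1.1 q' with h | h <;> rcases mem01 m q.1.2 q' with h' | h' <;>
          simp [h, h']) (Finset.mem_univ q)
    have a3 : 1 * (mem m q.1.1 q * mem m q.1.2 q) = 1 := by simp [mem]
    have a4 := (abs_le.1 (h2 q.1.1 q.1.2)).1
    linarith
  choose f hf using key
  have hinj : Function.Injective f := by
    rintro ⟨⟨i, j⟩, hij⟩ ⟨⟨i', j'⟩, hij'⟩ h
    obtain ⟨-, -, b⟩ := hf ⟨⟨i, j⟩, hij⟩
    obtain ⟨b1, b2, -⟩ := hf ⟨⟨i', j'⟩, hij'⟩
    rw [← h] at b1 b2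
    have c1 := b _ b1
    have c2 := b _ b2
    change i < j at hij
    change i' < j' at hij'
    change i' = i ∨ i' = j at c1
    change j' = i ∨ j' = j at c2
    obtain ⟨rfl, rfl⟩ : i = i' ∧ j = j' := by omega
    rfl
  have := Fintype.card_le_of_injective f hinj
  rwa [card_pairs, Fintype.card_fin] at this

theorem abs_tri {a b c e f : ℝ} (h1 : |a - b| ≤ e) (h2 : |b - c| ≤ f) : |a - c| ≤ e + f :=
  (abs_sub_le a b c).trans (add_le_add h1 h2)

theorem quad_core {P : ℝ} (hP1 : 1 < P) (hP2 : P ≠ 2) : ∃ C : ℝ, 0 < C ∧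
    ∀ (m d : ℕ) (x K : ℝ), 0 < x → x ≤ 1 → 1 ≤ K → K - 1 ≤ ((x ^ P) ^ P) ^ 3 →
      ((m : ℝ) ^ 2 + 4 * m + 5) * (C * (m.choose 2 : ℕ) * x) < 1 →
      ∀ (X : Set (Pairs m → ℝ)) (g : (Pairs m → ℝ) → Fin d → ℝ), 0 ∈ X → 1 ∈ X → -1 ∈ X →
        (∀ i, flip 1 (mem m i) ∈ X) → Good P K X g → m.choose 2 ≤ d := by
  obtain ⟨C, hC, hmid⟩ := A_mid hP1
  have hP0 : 0 < P := by linarith
  have hT : (1 : ℝ) ≤ 2 ^ P := Real.one_le_rpow (by norm_num) hP0.le
  have hq : 0 < |P - 2| := abs_pos.2 (sub_ne_zero.2 hP2)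
  obtain ⟨c₁, hc₁, e₁⟩ : ∃ c₁ : ℝ, 0 < c₁ ∧ c₁ = 2 ^ P * (4 + 2 * C) := ⟨_, by positivity, rfl⟩
  obtain ⟨c₂, hc₂, e₂⟩ : ∃ c₂ : ℝ, 0 < c₂ ∧
      |P - 2| * c₂ = 2 * P * (4 * 2 ^ P + c₁) + 18 * 2 ^ P :=
    ⟨(2 * P * (4 * 2 ^ P + c₁) + 18 * 2 ^ P) / |P - 2|, by positivity, by field_simp⟩
  refine ⟨2 * (2 * P * (4 * 2 ^ P + c₂) + 4 * 2 ^ P), by positivity,
    fun m d x K hx hx1 hK hκ hη X g m0 m1 m2 m3 hg => ?_⟩
  have hle : ∀ y : ℝ, 0 < y → y ≤ 1 → y ^ P ≤ y := fun y h0 h1 => by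
    conv_rhs => rw [← Real.rpow_one y]
    exact Real.rpow_le_rpow_of_exponent_ge h0 h1 hP1.le
  have hy : 0 < x ^ P := Real.rpow_pos_of_pos hx _
  have hyx := hle x hx hx1
  have hz : 0 < (x ^ P) ^ P := Real.rpow_pos_of_pos hy _
  have hzy := hle _ hy (hyx.trans hx1)
  have hz1 : (x ^ P) ^ P ≤ 1 := by linarith
  have hκz : K - 1 ≤ (x ^ P) ^ P := hκ.trans (pow_le_of_le_one hz.le hz1 (by norm_num))
  have ho : ∀ q, |(1 : Pairs m → ℝ) q| ^ P = 1 := fun q => by simp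
  have hN : A P (1 : Pairs m → ℝ) = (m.choose 2 : ℕ) := by
    simp only [A, ho, Finset.sum_const, Finset.card_univ, card_pairs, nsmul_eq_mul, mul_one]
  have hN' : ∑ _q : Pairs m, (1 : ℝ) = (m.choose 2 : ℕ) := by
    simp only [Finset.sum_const, Finset.card_univ, card_pairs, nsmul_eq_mul, mul_one]
  have hN0 : (0 : ℝ) ≤ (m.choose 2 : ℕ) := Nat.cast_nonneg _
  have hfl : ∀ i, A P (flip 1 (mem m i)) = (m.choose 2 : ℕ) := fun i => by
    rw [A_flip P _ (mem01 m i), hN]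
  have hneg : A P (-1 : Pairs m → ℝ) = (m.choose 2 : ℕ) := by rw [A_neg, hN]
  have h11 : A P (1 - -1 : Pairs m → ℝ) = 2 ^ P * (m.choose 2 : ℕ) := by
    have := flip_sub hP0 (-1 : Pairs m → ℝ) (s := 1) (fun _ => Or.inr rfl)
    rw [flip_one, neg_neg] at this
    rw [this, ← hN']
    simp
  have s1 := fun i => flip_add hP0 (1 : Pairs m → ℝ) (mem01 m i)
  have s2 := fun i => flip_sub hP0 (1 : Pairs m → ℝ) (mem01 m i)
  have s3 := fun i j => inter hP0 (1 : Pairs m → ℝ) (mem01 m i) (mem01 m j)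
  simp only [ho, hN] at s1 s2 s3
  generalize ((m.choose 2 : ℕ) : ℝ) = N at *
  have hκ0 : 0 ≤ K - 1 := by linarith
  have hκN : (K - 1) * N ≤ N := mul_le_of_le_one_left hN0 (by linarith)
  have base : ∀ u ∈ X, A P u = N → N ≤ A P (g u - g 0) ∧ A P (g u - g 0) ≤ K * N := by
    intro u hu h
    have := hg u hu 0 m0
    rwa [sub_zero, h] at this
  have near : ∀ u ∈ X, ∀ v ∈ X, A P u = N → A P v = N →
      |A P (g u - g 0 - (g v - g 0)) - A P (u - v)| ≤ 4 * 2 ^ P * N * x ^ P := by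
    intro u hu v hv h h'
    obtain ⟨b1, b2⟩ := hg u hu v hv
    have b3 := A_sub_le hP1 u v
    rw [h, h'] at b3
    rw [sub_sub_sub_cancel_right, abs_of_nonneg (by linarith)]
    have b4 : (K - 1) * A P (u - v) ≤ x ^ P * (2 ^ P * (N + N)) :=
      mul_le_mul (hκz.trans hzy) b3 (A_nonneg _ _) hy.le
    have b5 : 0 ≤ 2 ^ P * N * x ^ P := by positivity
    linarith
  have big : ∀ u v : Fin d → ℝ, A P u ≤ K * N → A P v ≤ K * N → A P (u - v) ≤ 4 * 2 ^ P * N := by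
    intro u v h h'
    have := mul_le_mul_of_nonneg_left (show A P u + A P v ≤ 4 * N by linarith)
      (show (0 : ℝ) ≤ 2 ^ P by linarith)
    have := A_sub_le hP1 u v
    linarith
  obtain ⟨c0, c1⟩ := base 1 m1 hN
  obtain ⟨-, b1⟩ := base (-1) m2 hneg
  have a0 := fun i => base _ (m3 i) (hfl i)
  have cb := (hg 1 m1 (-1) m2).1
  rw [h11, ← sub_sub_sub_cancel_right (g 1) (g (-1)) (g 0)] at cb
  have n1 := fun i => near _ (m3 i) _ m1 (hfl i) hN
  have n2 := fun i => near _ (m3 i) _ m2 (hfl i) hneg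
  have n3 := fun i j => near _ (m3 i) _ (m3 j) (hfl i) (hfl j)
  simp only [sub_neg_eq_add] at n2
  generalize g 1 - g 0 = c at *
  generalize g (-1) - g 0 = b at *
  obtain ⟨a, ha⟩ : ∃ a : Fin m → Fin d → ℝ, ∀ i, g (flip 1 (mem m i)) - g 0 = a i := ⟨_, fun _ => rfl⟩
  simp only [ha] at a0 n1 n2 n3
  have E1 : A P (c + b) ≤ c₁ * N * (x ^ P) ^ P := by
    have f1 := hmid _ hz hz1 _ c b
    generalize (x ^ P) ^ P = z at *
    have f2 : z * (2 ^ P * (A P c + A P b)) ≤ z * (2 ^ P * (4 * N)) := by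
      gcongr
      linarith
    have f3 : 2 ^ P * (A P c + A P b) ≤ 2 ^ P * (2 * (K * N)) := by
      gcongr
      linarith
    have f4 : 2 ^ P * ((K - 1) * N) ≤ 2 ^ P * (z ^ 3 * N) := by gcongr
    have f5 : C / z ^ 2 * (2 ^ P * (A P c + A P b) - 2 * A P (c - b)) ≤
        C / z ^ 2 * (2 * (2 ^ P * (z ^ 3 * N))) :=
      mul_le_mul_of_nonneg_left (by linarith) (by positivity)
    have f6 : C / z ^ 2 * (2 * (2 ^ P * (z ^ 3 * N))) = 2 * C * 2 ^ P * N * z := by field_simp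
    rw [e₁]
    linarith
  have E2 : ∀ i, ∃ t : Fin d → ℝ, (∀ x, t x = 0 ∨ t x = 1) ∧
      A P (flip c t - a i) ≤ c₂ * N * x ^ P := by
    intro i
    obtain ⟨t, ht, f1⟩ := round hP1 hP2 (a i) c
    refine ⟨t, ht, le_of_mul_le_mul_left ?_ hq⟩
    have f2 : |A P (a i + c) - A P (a i - b)| ≤ P * (4 * 2 ^ P * N + c₁ * N) * x ^ P := by
      refine A_close hP1 hy ?_ (big _ _ (a0 i).2 b1) ?_
      · rw [← sub_neg_eq_add]
        exact big _ _ (a0 i).2 (by rwa [A_neg])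
      · rwa [add_sub_sub_cancel]
    obtain ⟨f3, f4⟩ := abs_le.1 (abs_tri f2 (n2 i))
    obtain ⟨f5, f6⟩ := abs_le.1 (n1 i)
    obtain ⟨f7, f8⟩ := a0 i
    have f9 : (K - 1) * N ≤ x ^ P * N := mul_le_mul_of_nonneg_right (hκz.trans hzy) hN0
    have g1 : 2 ^ P * (N + N) ≤ 2 ^ P * (A P (a i) + A P c) := by gcongr
    have g2 : 2 ^ P * (A P (a i) + A P c) ≤ 2 ^ P * (2 * N + 2 * (x ^ P * N)) :=
      mul_le_mul_of_nonneg_left (by linarith) (by linarith)
    have g3 : 0 ≤ 2 ^ P * N * x ^ P := by positivity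
    have g4 := s1 i
    rw [A_comm, mul_assoc, ← mul_assoc, e₂]
    refine f1.trans (abs_le.2 ⟨?_, ?_⟩) <;> linarith
  choose t ht E2 using E2
  have hft : ∀ i, A P (flip c (t i)) ≤ K * N := fun i => by rwa [A_flip P _ (ht i)]
  have w1 : 4 * 2 ^ P * N * x ^ P ≤ 4 * 2 ^ P * N * x := by gcongr
  have w0 : 0 ≤ P * (4 * 2 ^ P * N + c₂ * N) * x := by positivity
  have w2 : N * x ≤ 2 ^ P * (N * x) := le_mul_of_one_le_left (by positivity) hT
  obtain ⟨η, hηe⟩ : ∃ η, η = (2 * P * (4 * 2 ^ P + c₂) + 4 * 2 ^ P) * N * x := ⟨_, rfl⟩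
  have hη0 : 0 ≤ η := by
    rw [hηe]
    positivity
  have w3 : η ≤ 2 ^ P * η := le_mul_of_one_le_left hη0 hT
  have E3 : ∀ i, |A P (flip c (t i) - c) - A P (flip 1 (mem m i) - 1)| ≤ η := by
    intro i
    have f1 := A_close hP1 hx (big _ _ (hft i) c1) (big _ _ (a0 i).2 c1)
      (by rw [sub_sub_sub_cancel_right]; exact E2 i)
    have := abs_tri f1 (n1 i)
    linarith
  have E4 : ∀ i j, |A P (flip c (t i) - flip c (t j)) -
      A P (flip 1 (mem m i) - flip 1 (mem m j))| ≤ η := by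
    intro i j
    have f1 := A_close hP1 hx (big _ _ (hft i) (a0 j).2) (big _ _ (a0 i).2 (a0 j).2)
      (by rw [sub_sub_sub_cancel_right]; exact E2 i)
    have f2 := A_close hP1 hx (big _ _ (hft i) (hft j)) (big _ _ (hft i) (a0 j).2)
      (by rw [sub_sub_sub_cancel_left, A_comm]; exact E2 j)
    have := abs_tri f2 (abs_tri f1 (n3 i j))
    linarith
  refine count (η := 2 * η) (fun x => |c x| ^ P) (fun x => by positivity) t ht ?_ (fun i => ?_)
    (fun i j => ?_) (by rw [hηe]; linarith)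
  · have f9 : (K - 1) * N ≤ x * N := mul_le_mul_of_nonneg_right (by linarith) hN0
    have : ∑ x, |c x| ^ P = A P c := rfl
    rw [hN', this]
    have : 0 ≤ N * x := by positivity
    linarith
  · refine le_of_mul_le_mul_left ?_ (show (0 : ℝ) < 2 ^ P by linarith)
    have f1 := (abs_le.1 (E3 i)).1
    rw [flip_sub hP0 c (ht i), s2 i] at f1
    linarith
  · refine le_of_mul_le_mul_left ?_ (show (0 : ℝ) < 2 ^ P * 2 by linarith)
    rw [← abs_of_pos (show (0 : ℝ) < 2 ^ P * 2 by linarith), ← abs_mul,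
      abs_of_pos (show (0 : ℝ) < 2 ^ P * 2 by linarith), mul_sub, mul_assoc, mul_assoc, s3,
      inter hP0 c (ht i) (ht j)]
    obtain ⟨f1, f2⟩ := abs_le.1 (E3 i)
    obtain ⟨f3, f4⟩ := abs_le.1 (E3 j)
    obtain ⟨f5, f6⟩ := abs_le.1 (E4 i j)
    refine abs_le.2 ⟨?_, ?_⟩ <;> linarith

theorem exists_pow_ge (c : ℝ) : ∃ B : ℕ, ∀ n : ℕ, 3 ≤ n → c < (n : ℝ) ^ B := by
  obtain ⟨B, hB⟩ := pow_unbounded_of_one_lt c (by norm_num : (1 : ℝ) < 3)
  refine ⟨B, fun n hn => hB.trans_le (pow_le_pow_left₀ (by norm_num) ?_ B)⟩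
  exact_mod_cast hn

/-- Quadratic dimension is needed for distortion `1 + n ^ (-A)`. -/
theorem quad_lower {p : ℝ≥0∞} [Fact (1 ≤ p)] (hp1 : 1 < p) (hp : p ≠ ∞) (hp2 : p ≠ 2) :
    ∃ A : ℝ, 0 < A ∧ ∀ n : ℕ, 3 ≤ n → ∀ ε : ℝ, 0 ≤ ε → ε ≤ (n : ℝ) ^ (-A) →
      (n - 3).choose 2 ≤ dimU.{u} p n (1 + ε) := by
  classical
  have hP1 := one_lt_toReal hp1 hp
  obtain ⟨C, hC, H⟩ := quad_core hP1 (toReal_ne_two hp hp2)
  have hgood := fun n ε (hε : 0 ≤ ε) => good_dimU.{u} hp (n := n) (D := 1 + ε) (by linarith)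
  generalize p.toReal = P at *
  obtain ⟨B, hB⟩ := exists_pow_ge (10 * C)
  obtain ⟨B', hB'⟩ := exists_pow_ge (P * 2 ^ P)
  refine ⟨B' + (B + 4 : ℕ) * P * P * 3, by positivity, fun n hn ε hε hεA => ?_⟩
  rcases isEmpty_or_nonempty (Pairs (n - 3)) with hE | hE
  · rw [← card_pairs, Fintype.card_eq_zero]
    exact Nat.zero_le _
  have hn1 : (3 : ℝ) ≤ n := by exact_mod_cast hn
  have hn0 : (0 : ℝ) < n := by linarith
  have hε1 : ε ≤ 1 := hεA.trans (Real.rpow_le_one_of_one_le_of_nonpos (by linarith)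
    (neg_nonpos.2 (by positivity)))
  obtain ⟨hK1, -, hK3⟩ := pow_one_add hP1.le hε hε1
  obtain ⟨g, hg⟩ := hgood n ε hε (Pairs (n - 3)) (insert 0 (insert 1 (insert (-1)
    (Finset.univ.image fun i => flip 1 (mem (n - 3) i))))) (by
      refine (Finset.card_insert_le _ _).trans ?_
      refine (Nat.add_le_add_right (Finset.card_insert_le _ _) 1).trans ?_
      refine (Nat.add_le_add_right (Nat.add_le_add_right (Finset.card_insert_le _ _) 1) 1).trans ?_
      have := Finset.card_image_le (s := (Finset.univ : Finset (Fin (n - 3))))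
        (f := fun i => flip (1 : Pairs (n - 3) → ℝ) (mem (n - 3) i))
      rw [Finset.card_univ, Fintype.card_fin] at this
      omega)
  have hx : 0 < (n : ℝ) ^ (-((B + 4 : ℕ) : ℝ)) := Real.rpow_pos_of_pos hn0 _
  refine H (n - 3) _ ((n : ℝ) ^ (-((B + 4 : ℕ) : ℝ))) _ hx
    (Real.rpow_le_one_of_one_le_of_nonpos (by linarith) (neg_nonpos.2 (by positivity))) hK1 ?_ ?_
    _ g (by simp) (by simp) (by simp) (fun i => by simp) hg
  · rw [← Real.rpow_mul hn0.le, ← Real.rpow_mul hn0.le, ← Real.rpow_natCast, ← Real.rpow_mul hn0.le]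
    refine hK3.trans ((mul_le_mul (hB' n hn).le hεA hε (by positivity)).trans_eq ?_)
    rw [← Real.rpow_natCast, ← Real.rpow_add hn0]
    congr 1
    push_cast
    ring
  · have h1 : ((n - 3 : ℕ) : ℝ) ≤ n := by exact_mod_cast Nat.sub_le n 3
    have h2 : (((n - 3).choose 2 : ℕ) : ℝ) ≤ (n : ℝ) ^ 2 := by
      have := Nat.choose_le_pow (n - 3) 2
      have h3 := Nat.pow_le_pow_left (Nat.sub_le n 3) 2
      exact_mod_cast this.trans h3
    have h3 : ((n - 3 : ℕ) : ℝ) ^ 2 + 4 * ((n - 3 : ℕ) : ℝ) + 5 ≤ 10 * (n : ℝ) ^ 2 := by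
      have : ((n - 3 : ℕ) : ℝ) ^ 2 ≤ (n : ℝ) ^ 2 := by gcongr
      nlinarith
    calc _ ≤ 10 * (n : ℝ) ^ 2 * (C * (n : ℝ) ^ 2 * (n : ℝ) ^ (-((B + 4 : ℕ) : ℝ))) := by gcongr
      _ = 10 * C / (n : ℝ) ^ B := by
          rw [Real.rpow_neg hn0.le, Real.rpow_natCast]
          field_simp
          ring
      _ < 1 := (div_lt_one (by positivity)).2 (hB n hn)

end Vale.Agent.N249
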