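import Vale.Agent.N249.Loc
import Vale.Agent.P249Z.Main
import Mathlib.Analysis.MeanInequalitiesPow

/-!
# N249: a binary tree of extremal quadrilaterals
-/

open scoped BigOperators ENNReal

namespace Vale.Agent.N249

open Vale.Agent.P249Z

/-- the `P`-th power of the `ℓ_P` norm -/
noncomputable def A (P : ℝ) {J : Type} [Fintype J] (w : J → ℝ) : ℝ := ∑ j, |w j| ^ P

/-- `g` expands `A` on `X` by a factor between `1` and `K` -/
def Good (P K : ℝ) {J : Type} [Fintype J] {d : ℕ} (X : Set (J → ℝ))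
    (g : (J → ℝ) → Fin d → ℝ) : Prop :=
  ∀ x ∈ X, ∀ y ∈ X, A P (x - y) ≤ A P (g x - g y) ∧ A P (g x - g y) ≤ K * A P (x - y)

/-- the vector `h 1_S` -/
noncomputable def ind {J : Type} [DecidableEq J] (S : Finset J) (h : ℝ) : J → ℝ :=
  fun j => if j ∈ S then h else 0

theorem A_nonneg (P : ℝ) {J : Type} [Fintype J] (w : J → ℝ) : 0 ≤ A P w :=
  Finset.sum_nonneg fun _ _ => Real.rpow_nonneg (abs_nonneg _) _

theorem le_A (P : ℝ) {J : Type} [Fintype J] (w : J → ℝ) (j : J) : |w j| ^ P ≤ A P w :=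
  Finset.single_le_sum (f := fun j => |w j| ^ P)
    (fun _ _ => Real.rpow_nonneg (abs_nonneg _) _) (Finset.mem_univ j)

theorem A_of_abs {P h : ℝ} (hP : 0 < P) {J : Type} [Fintype J] [DecidableEq J] {w : J → ℝ}
    {S : Finset J} (hw : ∀ j, |w j| = if j ∈ S then h else 0) : A P w = h ^ P * S.card := by
  have : ∀ j, |w j| ^ P = if j ∈ S then h ^ P else 0 := by
    intro j
    rw [hw j]
    split_ifs
    · rfl
    · exact Real.zero_rpow hP.ne'
  simp only [A, this, Finset.sum_ite_mem, Finset.univ_inter, Finset.sum_const, nsmul_eq_mul]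
  ring

theorem A_high {P δ : ℝ} (hδ : 0 ≤ δ) {J : Type} [Fintype J] (w : J → ℝ) :
    A (P * (1 + δ)) w ≤ A P w ^ (1 + δ) := by
  have h0 := A_nonneg P w
  rw [Real.rpow_add_of_nonneg h0 zero_le_one hδ, Real.rpow_one]
  have : ∀ j, |w j| ^ (P * (1 + δ)) ≤ |w j| ^ P * A P w ^ δ := by
    intro j
    have h1 : 0 ≤ |w j| ^ P := Real.rpow_nonneg (abs_nonneg _) _
    rw [Real.rpow_mul (abs_nonneg _), Real.rpow_add_of_nonneg h1 zero_le_one hδ, Real.rpow_one]
    exact mul_le_mul_of_nonneg_left (Real.rpow_le_rpow h1 (le_A P w j) hδ) h1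
  calc A (P * (1 + δ)) w ≤ ∑ j, |w j| ^ P * A P w ^ δ := Finset.sum_le_sum fun j _ => this j
    _ = A P w * A P w ^ δ := by rw [← Finset.sum_mul]; rfl

theorem A_low {P δ : ℝ} (hδ : 0 ≤ δ) {d : ℕ} (w : Fin d → ℝ) :
    A P w ^ (1 + δ) ≤ (d : ℝ) ^ δ * A (P * (1 + δ)) w := by
  have h := Real.rpow_sum_le_const_mul_sum_rpow_of_nonneg (s := Finset.univ)
    (f := fun j => |w j| ^ P) (p := 1 + δ) (by linarith)
    (fun _ _ => Real.rpow_nonneg (abs_nonneg _) _)
  simp only [Finset.card_univ, Fintype.card_fin, add_sub_cancel_left] at h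
  simp only [A, Real.rpow_mul (abs_nonneg _)]
  exact h

theorem ptw {P δ t x y U R : ℝ} (hP : 1 ≤ P) (hδ : 0 ≤ δ) (ht : 0 ≤ t) (hx : 0 ≤ x) (hy : 0 ≤ y)
    (hU : t ^ P ≤ U) (hR : 0 ≤ R) (h : t ^ (P - 1) * (t - max x y) ≤ R) :
    t ^ (P * (1 + δ)) ≤ x ^ (P * (1 + δ)) + y ^ (P * (1 + δ)) + P * (1 + δ) * U ^ δ * R := by
  have hq : 1 ≤ P * (1 + δ) := by nlinarith
  have h1 := pow_sub_le (le_max_of_le_left hx : 0 ≤ max x y) ht hq
  have h2 : t ^ (P * (1 + δ) - 1) = (t ^ P) ^ δ * t ^ (P - 1) := by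
    rw [← Real.rpow_mul ht, ← Real.rpow_add_of_nonneg ht (by positivity) (by linarith)]
    congr 1
    ring
  have h3 : (t ^ P) ^ δ ≤ U ^ δ := Real.rpow_le_rpow (Real.rpow_nonneg ht _) hU hδ
  have h4 : 0 ≤ (t ^ P) ^ δ := Real.rpow_nonneg (Real.rpow_nonneg ht _) _
  have h5 : (t ^ P) ^ δ * (t ^ (P - 1) * (t - max x y)) ≤ U ^ δ * R :=
    (mul_le_mul_of_nonneg_left h h4).trans (mul_le_mul_of_nonneg_right h3 hR)
  have h6 := mul_le_mul_of_nonneg_left h5 (by linarith : 0 ≤ P * (1 + δ))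
  have h7 : (max x y) ^ (P * (1 + δ)) ≤ x ^ (P * (1 + δ)) + y ^ (P * (1 + δ)) := by
    have := Real.rpow_nonneg hx (P * (1 + δ))
    have := Real.rpow_nonneg hy (P * (1 + δ))
    rcases le_total x y with h | h
    · rw [max_eq_right h]
      linarith
    · rw [max_eq_left h]
      linarith
  rw [h2] at h1
  linarith

/-- One splitting step: an edge `h 1_(S₁ ∪ S₂)` is replaced by two edges `c h 1_(S_i)`. -/
def Step (P c l G : ℝ) : Prop :=
  ∀ (J : Type) [Fintype J] [DecidableEq J] (u : J → ℝ) (h : ℝ) (S₁ S₂ : Finset J), 0 < h →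
    Disjoint S₁ S₂ → S₁.card = S₂.card → ∃ a b u₁ u₂ : J → ℝ,
      u₁ ∈ ({u, u + ind (S₁ ∪ S₂) h, a, b} : Set (J → ℝ)) ∧
      u₁ + ind S₁ (c * h) ∈ ({u, u + ind (S₁ ∪ S₂) h, a, b} : Set (J → ℝ)) ∧
      u₂ ∈ ({u, u + ind (S₁ ∪ S₂) h, a, b} : Set (J → ℝ)) ∧
      u₂ + ind S₂ (c * h) ∈ ({u, u + ind (S₁ ∪ S₂) h, a, b} : Set (J → ℝ)) ∧
      ∀ (d : ℕ) (g : (J → ℝ) → Fin d → ℝ) (K : ℝ),
        Good P K {u, u + ind (S₁ ∪ S₂) h, a, b} g → 1 ≤ K → ∃ σ : Fin d → ℝ, (∀ i, 0 ≤ σ i) ∧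
          ∑ i, σ i ≤ 4 * (K - 1) * ((c * h) ^ P * S₁.card) ∧ ∀ i,
            (c * |g (u + ind (S₁ ∪ S₂) h) i - g u i|) ^ (P - 1) *
              (c * |g (u + ind (S₁ ∪ S₂) h) i - g u i| -
                max |g (u₁ + ind S₁ (c * h)) i - g u₁ i| |g (u₂ + ind S₂ (c * h)) i - g u₂ i|) ≤
              l * (c * |g (u + ind (S₁ ∪ S₂) h) i - g u i|) ^ P + G * σ i

theorem A_edge {P h : ℝ} (hP : 0 < P) (hh : 0 < h) {J : Type} [Fintype J] [DecidableEq J]
    (u : J → ℝ) (S : Finset J) : A P (u + ind S h - u) = h ^ P * S.card := by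
  refine A_of_abs hP fun j => ?_
  simp only [add_sub_cancel_left, ind]
  split_ifs
  · exact abs_of_pos hh
  · exact abs_zero

theorem tree_alg {cq B B₁ B₂ L x a β E k Kδ q W Lr : ℝ} (hcq : 0 < cq) (ha : 1 ≤ a) (hL : 0 ≤ L)
    (hx : 0 ≤ x) (hE : 0 ≤ E) (hk : 0 ≤ k) (hEq : E = q * Kδ * W)
    (h : cq * B ≤ B₁ + B₂ + q * (a * Kδ * x) * (2 * L * W))
    (h₁ : B₁ ≤ L * x * (β + k * E)) (h₂ : B₂ ≤ L * x * (β + k * E))
    (hLr : cq * Lr = 2 * a * (L * x)) : B ≤ Lr * (β * a⁻¹ + (k + 1) * E) := by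
  refine le_of_mul_le_mul_left ?_ hcq
  have ha0 : a ≠ 0 := by linarith
  have e1 : cq * (Lr * (β * a⁻¹ + (k + 1) * E)) =
      2 * (L * x) * β + 2 * a * (L * x) * (k * E) + 2 * a * (L * x) * E := by
    rw [← mul_assoc, hLr]
    field_simp
    ring
  have e2 : q * (a * Kδ * x) * (2 * L * W) = 2 * a * (L * x) * E := by
    rw [hEq]
    ring
  have h3 : 0 ≤ L * x * (k * E) := by positivity
  have h4 : L * x * (k * E) ≤ a * (L * x * (k * E)) := le_mul_of_one_le_left h3 ha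
  rw [e1]
  linarith

theorem tree {P c l G K δ : ℝ} (hP : 1 ≤ P) (hc : 0 < c) (hl : 0 ≤ l) (hG : 0 ≤ G) (hK : 1 ≤ K)
    (hδ : 0 ≤ δ) (hs : Step P c l G) (J : Type) [Fintype J] [DecidableEq J] (k : ℕ) :
    ∀ (u : J → ℝ) (h : ℝ) (S : Finset J), 0 < h → S.card = 2 ^ k →
      ∃ Z : Finset (J → ℝ), Z.card + 2 ≤ 2 ^ (k + 1) ∧
        ∀ (d : ℕ) (g : (J → ℝ) → Fin d → ℝ), Good P K ({u, u + ind S h} ∪ (Z : Set (J → ℝ))) g →
          A (P * (1 + δ)) (g (u + ind S h) - g u) ≤ (h ^ P * 2 ^ k) ^ (1 + δ) *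
            (K ^ (1 + δ) * ((2 : ℝ) ^ δ)⁻¹ ^ k +
              k * (P * (1 + δ) * K ^ δ * (l * K + 2 * G * (K - 1)))) := by
  classical
  have hP0 : 0 < P := by linarith
  induction k with
  | zero =>
    intro u h S hh hS
    refine ⟨∅, by simp, fun d g hg => ?_⟩
    have h1 := (hg (u + ind S h) (by simp) u (by simp)).2
    rw [A_edge hP0 hh, hS] at h1
    have h2 := Real.rpow_le_rpow (A_nonneg _ _) h1 (by linarith : 0 ≤ 1 + δ)
    rw [Real.mul_rpow (by linarith) (by positivity)] at h2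
    have h3 := A_high (P := P) hδ (g (u + ind S h) - g u)
    simp only [pow_zero, Nat.cast_one, Nat.cast_zero, mul_one, zero_mul, add_zero] at h2 ⊢
    linarith
  | succ k ih =>
    intro u h S hh hS
    obtain ⟨S₁, hS₁, hc₁⟩ := Finset.exists_subset_card_eq (s := S) (n := 2 ^ k)
      (by rw [hS, pow_succ]; omega)
    have hc₂ : (S \ S₁).card = 2 ^ k := by
      rw [Finset.card_sdiff_of_subset hS₁, hS, hc₁, pow_succ]
      omega
    have hU : S₁ ∪ (S \ S₁) = S := Finset.union_sdiff_of_subset hS₁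
    obtain ⟨a, b, u₁, u₂, m₁, m₂, m₃, m₄, H⟩ := hs J u h S₁ (S \ S₁) hh Finset.disjoint_sdiff
      (by rw [hc₁, hc₂])
    rw [hU] at m₁ m₂ m₃ m₄ H
    have hch : 0 < c * h := mul_pos hc hh
    obtain ⟨Z₁, hZ₁, H₁⟩ := ih u₁ (c * h) S₁ hch hc₁
    obtain ⟨Z₂, hZ₂, H₂⟩ := ih u₂ (c * h) (S \ S₁) hch hc₂
    refine ⟨insert a (insert b (Z₁ ∪ Z₂)), ?_, fun d g hg => ?_⟩
    · have h1 := Finset.card_insert_le a (insert b (Z₁ ∪ Z₂))
      have h2 := Finset.card_insert_le b (Z₁ ∪ Z₂)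
      have h3 := Finset.card_union_le Z₁ Z₂
      rw [pow_succ 2 (k + 1)]
      omega
    have hsub : ∀ x ∈ ({u, u + ind S h, a, b} : Set (J → ℝ)),
        x ∈ ({u, u + ind S h} ∪ ((insert a (insert b (Z₁ ∪ Z₂)) : Finset (J → ℝ)) :
          Set (J → ℝ))) := by
      rintro x (rfl | rfl | rfl | rfl) <;> simp
    have hg₁ : Good P K ({u₁, u₁ + ind S₁ (c * h)} ∪ (Z₁ : Set (J → ℝ))) g := by
      have : ∀ x ∈ ({u₁, u₁ + ind S₁ (c * h)} ∪ (Z₁ : Set (J → ℝ))),
          x ∈ ({u, u + ind S h} ∪ ((insert a (insert b (Z₁ ∪ Z₂)) : Finset (J → ℝ)) :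
            Set (J → ℝ))) := by
        rintro x ((rfl | rfl) | hx)
        · exact hsub _ m₁
        · exact hsub _ m₂
        · simp [Finset.mem_coe.1 hx]
      exact fun x hx y hy => hg x (this x hx) y (this y hy)
    have hg₂ : Good P K ({u₂, u₂ + ind (S \ S₁) (c * h)} ∪ (Z₂ : Set (J → ℝ))) g := by
      have : ∀ x ∈ ({u₂, u₂ + ind (S \ S₁) (c * h)} ∪ (Z₂ : Set (J → ℝ))),
          x ∈ ({u, u + ind S h} ∪ ((insert a (insert b (Z₁ ∪ Z₂)) : Finset (J → ℝ)) :
            Set (J → ℝ))) := by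
        rintro x ((rfl | rfl) | hx)
        · exact hsub _ m₃
        · exact hsub _ m₄
        · simp [Finset.mem_coe.1 hx]
      exact fun x hx y hy => hg x (this x hx) y (this y hy)
    obtain ⟨σ, hσ0, hσ, hpt⟩ := H d g K (fun x hx y hy => hg x (hsub x hx) y (hsub y hy)) hK
    have b₁ := H₁ d g hg₁
    have b₂ := H₂ d g hg₂
    have h1 := (hg (u + ind S h) (by simp) u (by simp)).2
    rw [A_edge hP0 hh, hS] at h1
    rw [hc₁] at hσ
    push_cast at h1 hσ
    set L : ℝ := (c * h) ^ P * 2 ^ k with hL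
    have hL0 : 0 < L := by positivity
    have hcP : 0 < c ^ P := Real.rpow_pos_of_pos hc _
    have hLL : c ^ P * (h ^ P * 2 ^ (k + 1)) = 2 * L := by
      rw [hL, Real.mul_rpow hc.le hh.le]
      ring
    set w := g (u + ind S h) - g u with hw
    have hsum : ∀ s : ℝ, ∑ i, (c * |g (u + ind S h) i - g u i|) ^ s = c ^ s * A s w := by
      intro s
      rw [A, Finset.mul_sum]
      exact Finset.sum_congr rfl fun i _ => Real.mul_rpow hc.le (abs_nonneg _)
    have hUU : c ^ P * A P w ≤ 2 * K * L := by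
      have := mul_le_mul_of_nonneg_left h1 hcP.le
      calc c ^ P * A P w ≤ K * (c ^ P * (h ^ P * 2 ^ (k + 1))) := by linarith
        _ = 2 * K * L := by rw [hLL]; ring
    have hp2 : ∀ i, (c * |g (u + ind S h) i - g u i|) ^ (P * (1 + δ)) ≤
        |g (u₁ + ind S₁ (c * h)) i - g u₁ i| ^ (P * (1 + δ)) +
          |g (u₂ + ind (S \ S₁) (c * h)) i - g u₂ i| ^ (P * (1 + δ)) +
          P * (1 + δ) * (2 * K * L) ^ δ *
            (l * (c * |g (u + ind S h) i - g u i|) ^ P + G * σ i) := by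
      intro i
      have := hσ0 i
      refine ptw hP hδ (by positivity) (abs_nonneg _) (abs_nonneg _) ?_ (by positivity) (hpt i)
      rw [Real.mul_rpow hc.le (abs_nonneg _)]
      exact (mul_le_mul_of_nonneg_left (le_A P w i) hcP.le).trans hUU
    have hp3 := Finset.sum_le_sum fun i (_ : i ∈ Finset.univ) => hp2 i
    simp only [Finset.sum_add_distrib, ← Finset.mul_sum, hsum] at hp3
    have hp4 : l * (c ^ P * A P w) + G * ∑ i, σ i ≤ 2 * L * (l * K + 2 * G * (K - 1)) := by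
      have := mul_le_mul_of_nonneg_left hUU hl
      have := mul_le_mul_of_nonneg_left hσ hG
      linarith
    have hp5 : (2 * K * L) ^ δ = 2 ^ δ * K ^ δ * L ^ δ := by
      rw [Real.mul_rpow (by positivity) hL0.le, Real.mul_rpow (by norm_num) (by positivity)]
    have hp6 : L ^ (1 + δ) = L * L ^ δ := by rw [Real.rpow_add hL0, Real.rpow_one]
    have hK1 : 0 ≤ K - 1 := by linarith
    rw [hp6] at b₁ b₂
    rw [pow_succ ((2 : ℝ) ^ δ)⁻¹ k, ← mul_assoc (K ^ (1 + δ))]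
    push_cast
    refine tree_alg (cq := c ^ (P * (1 + δ))) (q := P * (1 + δ)) (Kδ := K ^ δ)
      (W := l * K + 2 * G * (K - 1)) (Real.rpow_pos_of_pos hc _)
      (Real.one_le_rpow (by norm_num) hδ) hL0.le (Real.rpow_nonneg hL0.le δ) (by positivity)
      (Nat.cast_nonneg k) rfl ?_ b₁ b₂ ?_
    · rw [← hp5]
      refine hp3.trans ?_
      have := mul_le_mul_of_nonneg_left hp4
        (show 0 ≤ P * (1 + δ) * (2 * K * L) ^ δ by positivity)
      exact add_le_add le_rfl this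
    · rw [Real.rpow_mul hc.le, ← Real.mul_rpow hcP.le (by positivity), hLL,
        Real.mul_rpow (by norm_num) hL0.le, hp6, Real.rpow_add (by norm_num), Real.rpow_one]

theorem young_lt {P l t μ : ℝ} (hP : 1 ≤ P) (hl : 0 < l) (ht : 0 ≤ t) (hμ : 0 ≤ μ) :
    t ^ (P - 1) * μ ≤ l * t ^ P + l ^ (1 - P) * μ ^ P := by
  have h1 : 0 ≤ t ^ (P - 1) := Real.rpow_nonneg ht _
  have h2 : 0 ≤ l * t ^ P := by positivity
  have h3 : 0 ≤ l ^ (1 - P) * μ ^ P := by positivity
  rcases le_total μ (l * t) with h | h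
  · have h4 := mul_le_mul_of_nonneg_left h h1
    rw [rpow_split (s := P) ht (by linarith)] at h2 ⊢
    linarith
  · have h4 : t ≤ μ / l := by
      rw [le_div_iff₀ hl]
      linarith
    have h5 := Real.rpow_le_rpow ht h4 (by linarith : 0 ≤ P - 1)
    rw [Real.div_rpow hμ hl.le] at h5
    have h6 : μ ^ (P - 1) / l ^ (P - 1) * μ = l ^ (1 - P) * μ ^ P := by
      rw [rpow_split (s := P) hμ (by linarith), ← neg_sub P 1, Real.rpow_neg hl.le]
      ring
    have h7 := mul_le_mul_of_nonneg_right h5 hμ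
    linarith

theorem young_gt {P l t μ : ℝ} (hP : 2 < P) (hl : 0 < l) (ht : 0 ≤ t) (hμ : 0 ≤ μ) :
    t ^ (P - 1) * μ ≤ l * t ^ P + l⁻¹ * (t ^ (P - 2) * μ ^ 2) := by
  have h0 := young_lt (P := 2) (by norm_num) hl ht hμ
  norm_num [Real.rpow_neg_one] at h0
  have h1 : 0 ≤ t ^ (P - 2) := Real.rpow_nonneg ht _
  have h2 : t ^ (P - 1) = t ^ (P - 2) * t := by
    rw [rpow_split (s := P - 1) ht (by linarith)]
    congr 2
    ring
  have h3 : t ^ P = t ^ (P - 2) * t ^ 2 := by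
    rw [rpow_split (s := P) ht (by linarith), h2]
    ring
  have h4 := mul_le_mul_of_nonneg_left h0 h1
  rw [h2, h3]
  linarith

theorem step_lt {P : ℝ} (hP1 : 1 < P) (hP : P < 2) {l : ℝ} (hl : 0 < l) :
    Step P 1 l ((1 + 2 / (2 - P)) * l ^ (1 - P)) := by
  intro J _ _ u h S₁ S₂ hh hdis hcard
  have hP0 : 0 < P := by linarith
  have hv : u + ind S₁ h + ind S₂ h = u + ind (S₁ ∪ S₂) h := by
    funext j
    have : j ∈ S₁ → j ∉ S₂ := fun hj => Finset.disjoint_left.1 hdis hj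
    by_cases h1 : j ∈ S₁ <;> by_cases h2 : j ∈ S₂ <;> simp_all [ind]
  have hv' : u + ind S₂ h + ind S₁ h = u + ind (S₁ ∪ S₂) h := by
    rw [← hv]
    ring
  simp only [one_mul]
  refine ⟨u + ind S₁ h, u + ind S₂ h, u, u + ind S₁ h, by simp, by simp, by simp, by simp [hv],
    fun d g K hg hK => ?_⟩
  rw [hv]
  set v := u + ind (S₁ ∪ S₂) h with hvd
  set a := u + ind S₁ h with ha
  set b := u + ind S₂ h with hb
  refine ⟨fun i => |g a i - g u i| ^ P + |g v i - g a i| ^ P + |g b i - g u i| ^ P +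
    |g v i - g b i| ^ P - |g a i - g u i + (g v i - g a i)| ^ P -
      |g a i - g u i - (g b i - g u i)| ^ P, fun i => (quad_lt hP1 hP (by ring)).1, ?_, fun i => ?_⟩
  · have e1 := (hg a (by simp) u (by simp)).2
    have e2 := (hg v (by simp) a (by simp)).2
    have e3 := (hg b (by simp) u (by simp)).2
    have e4 := (hg v (by simp) b (by simp)).2
    have e5 := (hg v (by simp) u (by simp)).1
    have e6 := (hg a (by simp) b (by simp)).1
    have f2 : A P (v - a) = h ^ P * S₂.card := by rw [← hv, A_edge hP0 hh]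
    have f4 : A P (v - b) = h ^ P * S₁.card := by rw [← hv', A_edge hP0 hh]
    have f6 : A P (a - b) = h ^ P * (S₁ ∪ S₂).card := by
      refine A_of_abs hP0 fun j => ?_
      have : j ∈ S₁ → j ∉ S₂ := fun hj => Finset.disjoint_left.1 hdis hj
      by_cases h1 : j ∈ S₁ <;> by_cases h2 : j ∈ S₂ <;> simp_all [ind, abs_of_pos hh]
    rw [ha, A_edge hP0 hh, ← ha] at e1
    rw [hb, A_edge hP0 hh, ← hb] at e3
    rw [hvd, A_edge hP0 hh, ← hvd] at e5
    rw [f2] at e2
    rw [f4] at e4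
    rw [f6] at e6
    rw [Finset.card_union_of_disjoint hdis, ← hcard] at e5 e6
    rw [← hcard] at e2 e3
    simp only [Finset.sum_add_distrib, Finset.sum_sub_distrib, sub_add_sub_cancel',
      sub_sub_sub_cancel_right]
    simp only [A, Pi.sub_apply] at e1 e2 e3 e4 e5 e6
    push_cast at e5 e6
    linarith
  · obtain ⟨-, h2⟩ := quad_lt hP1 hP (show g a i - g u i + (g v i - g a i) =
      g b i - g u i + (g v i - g b i) by ring)
    have h3 : |g v i - g u i| - max |g a i - g u i| |g v i - g a i| ≤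
        min |g a i - g u i| |g v i - g a i| := by
      have := abs_add_le (g a i - g u i) (g v i - g a i)
      rw [sub_add_sub_cancel'] at this
      have := max_add_min |g a i - g u i| |g v i - g a i|
      linarith
    have h4 := young_lt hP1.le hl (abs_nonneg (g v i - g u i))
      (le_min (abs_nonneg (g a i - g u i)) (abs_nonneg (g v i - g a i)))
    have h5 := mul_le_mul_of_nonneg_left h3 (Real.rpow_nonneg (abs_nonneg (g v i - g u i)) (P - 1))
    have h6 := mul_le_mul_of_nonneg_left h2 (Real.rpow_nonneg hl.le (1 - P))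
    linarith

theorem step_gt {P : ℝ} (hP : 2 < P) {l : ℝ} (hl : 0 < l) :
    Step P 2 l (4 * 12 ^ (P / 2 - 1) * (1 + 1 / (P / 2 - 1)) * l⁻¹) := by
  intro J _ _ u h S₁ S₂ hh hdis hcard
  have hP0 : 0 < P := by linarith
  have hdj : ∀ j, j ∈ S₁ → j ∉ S₂ := fun j hj => Finset.disjoint_left.1 hdis hj
  have hv : u + ind S₁ h - ind S₂ h + ind S₂ (2 * h) = u + ind (S₁ ∪ S₂) h := by
    funext j
    have := hdj j
    by_cases h1 : j ∈ S₁ <;> by_cases h2 : j ∈ S₂ <;> simp_all [ind]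
    ring
  refine ⟨u + ind S₁ (2 * h), u + ind S₁ h - ind S₂ h, u, u + ind S₁ h - ind S₂ h, by simp,
    by simp, by simp, by simp [hv], fun d g K hg hK => ?_⟩
  rw [hv]
  set v := u + ind (S₁ ∪ S₂) h with hvd
  set a := u + ind S₁ (2 * h) with ha
  set b := u + ind S₁ h - ind S₂ h with hb
  refine ⟨fun i => 2 ^ (P - 2) * (|g v i - g u i| ^ P + |g a i - g v i| ^ P + |g b i - g u i| ^ P +
    |g a i - g b i| ^ P) - |g v i - g u i + (g a i - g v i)| ^ P -
      |g v i - g u i - (g b i - g u i)| ^ P, fun i => (quad_gt hP (by ring)).1, ?_, fun i => ?_⟩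
  · have e1 := (hg v (by simp) u (by simp)).2
    have e2 := (hg a (by simp) v (by simp)).2
    have e3 := (hg b (by simp) u (by simp)).2
    have e4 := (hg a (by simp) b (by simp)).2
    have e5 := (hg a (by simp) u (by simp)).1
    have e6 := (hg v (by simp) b (by simp)).1
    have hh2 : 0 < 2 * h := by linarith
    have h2h : 2 * h - h = h := by ring
    have f2 : A P (a - v) = h ^ P * (S₁ ∪ S₂).card := by
      refine A_of_abs hP0 fun j => ?_
      have := hdj j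
      by_cases h1 : j ∈ S₁ <;> by_cases h2 : j ∈ S₂ <;> simp_all [ind, abs_of_pos hh]
    have f3 : A P (b - u) = h ^ P * (S₁ ∪ S₂).card := by
      refine A_of_abs hP0 fun j => ?_
      have := hdj j
      by_cases h1 : j ∈ S₁ <;> by_cases h2 : j ∈ S₂ <;> simp_all [ind, abs_of_pos hh]
    have f4 : A P (a - b) = h ^ P * (S₁ ∪ S₂).card := by
      refine A_of_abs hP0 fun j => ?_
      have := hdj j
      by_cases h1 : j ∈ S₁ <;> by_cases h2 : j ∈ S₂ <;> simp_all [ind, abs_of_pos hh]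
    have f6 : A P (v - b) = (2 * h) ^ P * S₂.card := by rw [← hv, A_edge hP0 hh2]
    rw [hvd, A_edge hP0 hh, ← hvd] at e1
    rw [ha, A_edge hP0 hh2, ← ha] at e5
    rw [f2] at e2
    rw [f3] at e3
    rw [f4] at e4
    rw [f6, ← hcard] at e6
    rw [Finset.card_union_of_disjoint hdis, ← hcard] at e1 e2 e3 e4
    simp only [Finset.sum_add_distrib, Finset.sum_sub_distrib, sub_add_sub_cancel',
      sub_sub_sub_cancel_right, ← Finset.mul_sum]
    simp only [A, Pi.sub_apply] at e1 e2 e3 e4 e5 e6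
    push_cast at e1 e2 e3 e4
    have k1 : (2 * h) ^ P = 2 ^ (P - 2) * (4 * h ^ P) := by
      rw [Real.mul_rpow (by norm_num) hh.le, Real.rpow_sub (by norm_num)]
      norm_num
      ring
    have k2 := mul_le_mul_of_nonneg_left (add_le_add (add_le_add (add_le_add e1 e2) e3) e4)
      (Real.rpow_nonneg (by norm_num : (0 : ℝ) ≤ 2) (P - 2))
    have k3 : 0 ≤ (K - 1) * ((2 * h) ^ P * S₁.card) := by
      have : 0 ≤ K - 1 := by linarith
      positivity
    rw [k1] at e5 e6 k3 ⊢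
    linarith
  · obtain ⟨h1, h2⟩ := quad_gt hP (show g v i - g u i + (g a i - g v i) =
      g b i - g u i + (g a i - g b i) by ring)
    have h0 : 0 < P / 2 - 1 := by linarith
    simp only [sub_add_sub_cancel', sub_sub_sub_cancel_right] at h1 h2 ⊢
    have ht : 0 ≤ 2 * |g v i - g u i| := by positivity
    rcases le_total 0 (2 * |g v i - g u i| - max |g a i - g u i| |g v i - g b i|) with hd | hd
    · have h4 := young_gt hP hl ht hd
      have h6 := mul_le_mul_of_nonneg_left (h2 hd) (inv_nonneg.2 hl.le)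
      linarith
    · refine (mul_nonpos_of_nonneg_of_nonpos (Real.rpow_nonneg ht _) hd).trans ?_
      positivity

end Vale.Agent.N249
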